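import Crest.Agent.X261.Top.Defs

/-!
# Row 261, GAUSS-LIN (helper91), file `C`: wedge products in the Fock model

* `mv B S`   : a matrix on `FI n` acting on vector valued forms;
* `Deg m S`  : `S` is a form of degree `m`;
* `EW r`     : the alternating map `v ↦ eW v₁ ⋯ eW v_r`; `Top.wdg v = EW v *ᵥ vac`;
* `wdg_cons`, `wdg_append`, `Gam_wdg`, `wdg_lin`, `twdg_ne_zero_iff`, `wdg_par`, `finrank_ker`.
-/

set_option autoImplicit false
set_option linter.unusedSectionVars false

open Finset Matrix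

namespace Crest.Agent.X261.Plk

open Crest.Agent.R275.Kos798 Crest.Agent.R273.Fock_243

noncomputable section

variable {n : ℕ} {W W' : Type*} [AddCommGroup W] [Module ℂ W] [AddCommGroup W'] [Module ℂ W']

/-! ### matrices acting on vector valued forms -/

/-- a matrix acting on a vector valued form -/
def mv (B : Matrix (FI n) (FI n) ℂ) (S : FI n → W) : FI n → W := fun I => ∑ J, B I J • S J

theorem mv_apply (B : Matrix (FI n) (FI n) ℂ) (S : FI n → W) (I : FI n) :
    mv B S I = ∑ J, B I J • S J := rfl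

theorem mv_eq_mulVec (B : Matrix (FI n) (FI n) ℂ) (ω : FI n → ℂ) : mv B ω = B *ᵥ ω := rfl

theorem mv_mul (B C : Matrix (FI n) (FI n) ℂ) (S : FI n → W) : mv (B * C) S = mv B (mv C S) := by
  ext I
  simp only [mv, Matrix.mul_apply, Finset.sum_smul, Finset.smul_sum, smul_smul]
  exact Finset.sum_comm

@[simp] theorem mv_one (S : FI n → W) : mv 1 S = S := by
  ext I
  simp [mv, Matrix.one_apply]

@[simp] theorem mv_zero (S : FI n → W) : mv 0 S = 0 := by
  ext I
  simp [mv]

@[simp] theorem mv_zero' (B : Matrix (FI n) (FI n) ℂ) : mv B (0 : FI n → W) = 0 := by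
  ext I
  simp [mv]

theorem mv_add (B C : Matrix (FI n) (FI n) ℂ) (S : FI n → W) :
    mv (B + C) S = mv B S + mv C S := by
  ext I
  simp [mv, add_smul, Finset.sum_add_distrib]

theorem mv_neg (B : Matrix (FI n) (FI n) ℂ) (S : FI n → W) : mv (-B) S = -mv B S := by
  ext I
  simp [mv]

theorem mv_smul (c : ℂ) (B : Matrix (FI n) (FI n) ℂ) (S : FI n → W) :
    mv (c • B) S = c • mv B S := by
  ext I
  simp [mv, Finset.smul_sum, smul_smul]

theorem mv_sum {α : Type*} (s : Finset α) (B : α → Matrix (FI n) (FI n) ℂ) (S : FI n → W) :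
    mv (∑ a ∈ s, B a) S = ∑ a ∈ s, mv (B a) S := by
  ext I
  simp only [mv, Matrix.sum_apply, Finset.sum_smul, Finset.sum_apply]
  exact Finset.sum_comm

theorem mv_add' (B : Matrix (FI n) (FI n) ℂ) (S S' : FI n → W) :
    mv B (S + S') = mv B S + mv B S' := by
  ext I
  simp [mv, Finset.sum_add_distrib]

theorem mv_smul' (c : ℂ) (B : Matrix (FI n) (FI n) ℂ) (S : FI n → W) :
    mv B (c • S) = c • mv B S := by
  ext I
  simp [mv, Finset.smul_sum, smul_smul, mul_comm]

theorem mv_sum' {α : Type*} (s : Finset α) (B : Matrix (FI n) (FI n) ℂ) (S : α → FI n → W) :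
    mv B (∑ a ∈ s, S a) = ∑ a ∈ s, mv B (S a) := by
  ext I
  simp only [mv, Finset.smul_sum, Finset.sum_apply]
  exact Finset.sum_comm

theorem mv_map (U : W →ₗ[ℂ] W') (B : Matrix (FI n) (FI n) ℂ) (S : FI n → W) :
    mv B (fun I => U (S I)) = fun I => U (mv B S I) := by
  ext I
  simp [mv]

/-- `mv` on a rank one form -/
theorem mv_rk1 (B : Matrix (FI n) (FI n) ℂ) (ω : FI n → ℂ) (h : W) :
    mv B (fun I => ω I • h) = fun I => (B *ᵥ ω) I • h := by
  ext I
  simp [mv, Matrix.mulVec, dotProduct, Finset.sum_smul, smul_smul]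

/-- `mv` on a finite sum of rank one forms -/
theorem mv_fsum {α : Type*} [Fintype α] (B : Matrix (FI n) (FI n) ℂ) (ω : α → FI n → ℂ)
    (h : α → W) :
    mv B (fun I => ∑ a, ω a I • h a) = fun I => ∑ a, (B *ᵥ ω a) I • h a := by
  ext I
  simp only [mv, Matrix.mulVec, dotProduct, Finset.sum_smul, Finset.smul_sum, smul_smul]
  exact Finset.sum_comm

theorem mv_mem {T : Submodule ℂ W} {S : FI n → W} (hS : ∀ I, S I ∈ T)
    (B : Matrix (FI n) (FI n) ℂ) (I : FI n) : mv B S I ∈ T :=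
  T.sum_mem fun J _ => T.smul_mem _ (hS J)

theorem mv_eW_iW (v w : Fin n → ℂ) (S : FI n → W) :
    mv (iW w) (mv (eW v) S) + mv (eW v) (mv (iW w) S) = (∑ j, v j * w j) • S := by
  rw [← mv_mul, ← mv_mul, ← mv_add, iW_eW, mv_smul, mv_one]

theorem mv_iW_eq_sum (w : Fin n → ℂ) (S : FI n → W) (I : FI n) :
    mv (iW w) S I = ∑ b, w b • mv (iW (ep b)) S I := by
  rw [iW_eq_sum w, mv_sum, Finset.sum_apply]
  refine Finset.sum_congr rfl fun b _ => ?_
  rw [mv_smul]; rfl

/-! ### degrees -/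

/-- forms of degree `m` -/
def Deg (m : ℕ) (S : FI n → W) : Prop := ∀ I : FI n, I.card ≠ m → S I = 0

theorem eW_ne {v : Fin n → ℂ} {I J : FI n} (h : eW v I J ≠ 0) : I.card = J.card + 1 := by
  have h1 : ∃ j, tog I j = J := by
    by_contra h2
    push Not at h2
    exact h (K_apply_eq_zero _ _ h2)
  obtain ⟨j, rfl⟩ := h1
  unfold eW at h
  rw [K_apply_tog] at h
  have hj : j ∈ I := by
    by_contra hj
    apply h
    unfold cf
    rw [if_neg hj]; simp
  unfold tog
  rw [if_pos hj, Finset.card_erase_add_one hj]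

theorem iW_ne {v : Fin n → ℂ} {I J : FI n} (h : iW v I J ≠ 0) : J.card = I.card + 1 := by
  rw [← eW_transpose, Matrix.transpose_apply] at h
  exact eW_ne h

theorem Deg.eW {m : ℕ} {S : FI n → W} (h : Deg m S) (v : Fin n → ℂ) :
    Deg (m + 1) (mv (eW v) S) := by
  intro I hI
  refine Finset.sum_eq_zero fun J _ => ?_
  by_cases h1 : Crest.Agent.R273.Fock_243.eW v I J = 0
  · rw [h1, zero_smul]
  · rw [h J (by have := eW_ne h1; omega), smul_zero]

theorem Deg.iW {m : ℕ} {S : FI n → W} (h : Deg (m + 1) S) (v : Fin n → ℂ) :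
    Deg m (mv (iW v) S) := by
  intro I hI
  refine Finset.sum_eq_zero fun J _ => ?_
  by_cases h1 : Crest.Agent.R273.Fock_243.iW v I J = 0
  · rw [h1, zero_smul]
  · rw [h J (by have := iW_ne h1; omega), smul_zero]

theorem Deg.iW_zero {S : FI n → W} (h : Deg 0 S) (v : Fin n → ℂ) :
    mv (Crest.Agent.R273.Fock_243.iW v) S = 0 := by
  funext I
  refine Finset.sum_eq_zero fun J _ => ?_
  by_cases h1 : Crest.Agent.R273.Fock_243.iW v I J = 0
  · rw [h1, zero_smul]
  · rw [h J (by have := iW_ne h1; omega), smul_zero]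

theorem Deg.gam {m : ℕ} {S : FI n → W} (h : Deg m S) (Q : Matrix (Fin n) (Fin n) ℂ) :
    Deg m (mv (Gam Q) S) := by
  intro I hI
  refine Finset.sum_eq_zero fun J _ => ?_
  by_cases h1 : I.card = J.card
  · rw [h J (h1 ▸ hI), smul_zero]
  · rw [Gam_of_ne Q h1, zero_smul]

theorem Deg.smul {m : ℕ} {S : FI n → W} (h : Deg m S) (c : ℂ) : Deg m (c • S) := fun I hI => by
  simp [h I hI]

theorem Deg.map {m : ℕ} {S : FI n → W} (h : Deg m S) (U : W →ₗ[ℂ] W') :
    Deg m fun I => U (S I) := fun I hI => by simp [h I hI]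

theorem deg_wdg {m : ℕ} (v : Fin m → Fin n → ℂ) : Deg m (Top.wdg v) := fun _ hI => dif_neg hI

/-- the vacuum vector -/
def vac (n : ℕ) : FI n → ℂ := Pi.single ∅ 1

theorem eW_vac (b : Fin n) : eW (ep b : Fin n → ℂ) *ᵥ vac n = Pi.single {b} 1 := by
  have := eW_single (R := ℂ) (t := b) (T := ∅) (by simp)
  simpa [vac] using this

/-- a form of degree one -/
theorem Deg.one_eq {S : FI n → W} (h : Deg 1 S) (I : FI n) :
    S I = ∑ b, (Crest.Agent.R273.Fock_243.eW (ep b : Fin n → ℂ) *ᵥ vac n) I • S {b} := by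
  simp only [eW_vac]
  by_cases hI : I.card = 1
  · obtain ⟨a, rfl⟩ := Finset.card_eq_one.1 hI
    rw [Finset.sum_eq_single a]
    · simp
    · intro b _ hb
      rw [Pi.single_eq_of_ne (by simpa using hb.symm), zero_smul]
    · simp
  · rw [h I hI]
    refine (Finset.sum_eq_zero fun b _ => ?_).symm
    rw [Pi.single_eq_of_ne (by rintro rfl; simp at hI), zero_smul]

theorem Deg.zero_eq {S : FI n → W} (h : Deg 0 S) (I : FI n) : S I = vac n I • S ∅ := by
  by_cases hI : I = ∅
  · subst hI; simp [vac]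
  · rw [h I (by simpa using hI), vac, Pi.single_eq_of_ne hI, zero_smul]

/-! ### products of creation operators -/

/-- `eW` as a linear map -/
def eWL (n : ℕ) : (Fin n → ℂ) →ₗ[ℂ] Matrix (FI n) (FI n) ℂ where
  toFun := eW
  map_add' := eW_add
  map_smul' := eW_smul

/-- the product `eW v₁ ⋯ eW v_r`, multilinear version -/
def EWm (n r : ℕ) : MultilinearMap ℂ (fun _ : Fin r => Fin n → ℂ) (Matrix (FI n) (FI n) ℂ) :=
  (MultilinearMap.mkPiAlgebraFin ℂ r (Matrix (FI n) (FI n) ℂ)).compLinearMap fun _ => eWL n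

theorem EWm_apply {r : ℕ} (v : Fin r → Fin n → ℂ) :
    EWm n r v = (List.ofFn fun k => eW (v k)).prod := rfl

theorem EWm_succ {r : ℕ} (v : Fin (r + 1) → Fin n → ℂ) :
    EWm n (r + 1) v = eW (v 0) * EWm n r (fun k => v k.succ) := by
  rw [EWm_apply, EWm_apply, List.ofFn_succ, List.prod_cons]

theorem eW_EWm_self : ∀ {r : ℕ} (v : Fin r → Fin n → ℂ) (j : Fin r), eW (v j) * EWm n r v = 0
  | 0, _, j => j.elim0
  | r + 1, v, j => by
    rw [EWm_succ, ← mul_assoc]
    induction j using Fin.cases with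
    | zero => rw [eW_sq, zero_mul]
    | succ j =>
      rw [eq_neg_of_add_eq_zero_left (eW_anti (v j.succ) (v 0)), Matrix.neg_mul, mul_assoc,
        eW_EWm_self (fun k => v k.succ) j, mul_zero, neg_zero]

theorem EWm_alt : ∀ {r : ℕ} (v : Fin r → Fin n → ℂ) (i j : Fin r), v i = v j → i ≠ j →
    EWm n r v = 0
  | 0, _, i, _, _, _ => i.elim0
  | r + 1, v, i, j, h, hij => by
    rw [EWm_succ]
    induction i using Fin.cases with
    | zero =>
      induction j using Fin.cases with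
      | zero => exact absurd rfl hij
      | succ j => rw [h]; exact eW_EWm_self (fun k => v k.succ) j
    | succ i =>
      induction j using Fin.cases with
      | zero => rw [← h]; exact eW_EWm_self (fun k => v k.succ) i
      | succ j =>
        rw [EWm_alt (fun k => v k.succ) i j h (fun h' => hij (h' ▸ rfl)), mul_zero]

/-- the product `eW v₁ ⋯ eW v_r` -/
def EW (n r : ℕ) : (Fin n → ℂ) [⋀^Fin r]→ₗ[ℂ] Matrix (FI n) (FI n) ℂ where
  toMultilinearMap := EWm n r
  map_eq_zero_of_eq' := EWm_alt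

theorem EW_apply {r : ℕ} (v : Fin r → Fin n → ℂ) :
    EW n r v = (List.ofFn fun k => eW (v k)).prod := rfl

theorem EW_zero (v : Fin 0 → Fin n → ℂ) : EW n 0 v = 1 := by simp [EW_apply]

theorem EW_succ {r : ℕ} (v : Fin (r + 1) → Fin n → ℂ) :
    EW n (r + 1) v = eW (v 0) * EW n r (fun k => v k.succ) := EWm_succ v

theorem EW_cons {r : ℕ} (x : Fin n → ℂ) (v : Fin r → Fin n → ℂ) :
    EW n (r + 1) (Fin.cons x v) = eW x * EW n r v := by
  rw [EW_succ]; simp

theorem EW_append {r q : ℕ} (u : Fin r → Fin n → ℂ) (v : Fin q → Fin n → ℂ) :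
    EW n (r + q) (Fin.append u v) = EW n r u * EW n q v := by
  rw [EW_apply, EW_apply, EW_apply, ← List.prod_append, ← List.ofFn_fin_append]
  congr 2
  funext k
  induction k using Fin.addCases <;> simp

theorem eW_EW_self {r : ℕ} (v : Fin r → Fin n → ℂ) (j : Fin r) : eW (v j) * EW n r v = 0 :=
  eW_EWm_self v j

theorem eW_EW_of_mem {r : ℕ} {v : Fin r → Fin n → ℂ} {x : Fin n → ℂ}
    (hx : x ∈ Submodule.span ℂ (Set.range v)) : eW x * EW n r v = 0 := by
  induction hx using Submodule.span_induction with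
  | mem y hy => obtain ⟨j, rfl⟩ := hy; exact eW_EW_self v j
  | zero => simp
  | add y z _ _ hy hz => rw [eW_add, add_mul, hy, hz, add_zero]
  | smul c y _ hy => rw [eW_smul, smul_mul_assoc, hy, smul_zero]

theorem eW_EW_comm : ∀ {r : ℕ} (x : Fin n → ℂ) (v : Fin r → Fin n → ℂ),
    EW n r v * eW x = (-1 : ℂ) ^ r • (eW x * EW n r v)
  | 0, x, v => by simp [EW_zero]
  | r + 1, x, v => by
    rw [EW_succ, mul_assoc, eW_EW_comm x, mul_smul_comm, ← mul_assoc,
      eq_neg_of_add_eq_zero_left (eW_anti (v 0) x), Matrix.neg_mul, mul_assoc, pow_succ,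
      mul_smul, neg_one_smul]

theorem iW_EW_comm : ∀ {r : ℕ} (w : Fin n → ℂ) (v : Fin r → Fin n → ℂ),
    (∀ k, ∑ j, v k j * w j = 0) → iW w * EW n r v = (-1 : ℂ) ^ r • (EW n r v * iW w)
  | 0, w, v, _ => by simp [EW_zero]
  | r + 1, w, v, h => by
    have h0 := iW_eW w (v 0)
    rw [h 0, zero_smul] at h0
    rw [EW_succ, ← mul_assoc, eq_neg_of_add_eq_zero_left h0, Matrix.neg_mul, mul_assoc,
      iW_EW_comm w _ fun k => h k.succ, mul_smul_comm, mul_assoc, pow_succ, mul_smul,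
      neg_one_smul, smul_neg]

theorem Gam_EW (Q : Matrix (Fin n) (Fin n) ℂ) : ∀ {r : ℕ} (v : Fin r → Fin n → ℂ),
    Gam Q * EW n r v = EW n r (fun k => Q *ᵥ v k) * Gam Q
  | 0, v => by simp [EW_zero]
  | r + 1, v => by
    rw [EW_succ, EW_succ, ← mul_assoc, Gam_eW, mul_assoc, Gam_EW Q, mul_assoc]

theorem Gam_vac' (Q : Matrix (Fin n) (Fin n) ℂ) : Gam Q *ᵥ vac n = vac n := by
  ext S
  rw [vac, Matrix.mulVec_single_one, Matrix.col_apply, Gam_vac, Pi.single_apply]

theorem iW_vac (w : Fin n → ℂ) : iW w *ᵥ vac n = 0 :=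
  Deg.iW_zero (S := vac n) (fun I hI => Pi.single_eq_of_ne (by rintro rfl; simp at hI) _) w

/-! ### the wedge product of covectors -/

theorem eW_mulVec_apply (x : Fin n → ℂ) (f : FI n → ℂ) (S : FI n) :
    (eW x *ᵥ f) S = ∑ j ∈ S, sgn ℂ j S * x j * f (S.erase j) := by
  unfold eW
  rw [K_mulVec]
  unfold op cf
  rw [← Finset.sum_subset (Finset.subset_univ S)]
  · refine Finset.sum_congr rfl fun j hj => ?_
    rw [if_pos hj]
    unfold tog
    rw [if_pos hj]
  · intro j _ hj
    rw [if_neg hj]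
    simp

theorem wdg_succ {m : ℕ} (v : Fin (m + 1) → Fin n → ℂ) :
    Top.wdg v = eW (v 0) *ᵥ Top.wdg fun k => v k.succ := by
  ext S
  by_cases hc : S.card = m + 1
  · rw [eW_mulVec_apply]
    unfold Top.wdg
    rw [dif_pos hc, Matrix.det_succ_row_zero]
    have e2 : ∀ F : Fin n → ℂ, ∑ j ∈ S, F j = ∑ i : Fin (m + 1), F (S.orderEmbOfFin hc i) := by
      intro F
      conv_lhs => rw [← Finset.map_orderEmbOfFin_univ S hc]
      rw [Finset.sum_map]
      rfl
    rw [e2]
    refine Finset.sum_congr rfl fun i _ => ?_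
    have hE : (S.erase (S.orderEmbOfFin hc i)).card = m := by
      rw [Finset.card_erase_of_mem (Finset.orderEmbOfFin_mem S hc i), hc, Nat.add_sub_cancel]
    have h3 : (fun j : Fin m => S.orderEmbOfFin hc (i.succAbove j))
        = (S.erase (S.orderEmbOfFin hc i)).orderEmbOfFin hE := by
      apply Finset.orderEmbOfFin_unique
      · intro j
        refine Finset.mem_erase.2 ⟨fun h4 => ?_, Finset.orderEmbOfFin_mem _ hc _⟩
        exact absurd ((S.orderEmbOfFin hc).injective h4) (Fin.succAbove_ne i j)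
      · intro a b hab
        exact (S.orderEmbOfFin hc).strictMono (Fin.strictMono_succAbove i hab)
    have h4 : sgn ℂ (S.orderEmbOfFin hc i) S = (-1) ^ (i : ℕ) := by
      unfold sgn
      rw [card_filter_lt hc i]
    rw [dif_pos hE, h4]
    simp only [Matrix.of_apply]
    congr 2
    ext a b
    simp only [Matrix.submatrix_apply, Matrix.of_apply]
    rw [← h3]
  · rw [deg_wdg v S hc]
    exact ((deg_wdg fun k => v k.succ).eW (v 0) S hc).symm

theorem wdg_nil (v : Fin 0 → Fin n → ℂ) : Top.wdg v = vac n := by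
  ext S
  by_cases hS : S = ∅
  · subst hS
    simp [Top.wdg, vac]
  · rw [deg_wdg v S (by simpa using hS), vac, Pi.single_eq_of_ne hS]

theorem wdg_eq : ∀ {m : ℕ} (v : Fin m → Fin n → ℂ), Top.wdg v = EW n m v *ᵥ vac n
  | 0, v => by rw [wdg_nil, EW_zero, Matrix.one_mulVec]
  | m + 1, v => by rw [wdg_succ, wdg_eq, EW_succ, Matrix.mulVec_mulVec]

theorem wdg_cons {m : ℕ} (x : Fin n → ℂ) (v : Fin m → Fin n → ℂ) :
    Top.wdg (Fin.cons x v : Fin (m + 1) → Fin n → ℂ) = eW x *ᵥ Top.wdg v := by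
  rw [wdg_succ]; simp

theorem wdg_append {r q : ℕ} (u : Fin r → Fin n → ℂ) (v : Fin q → Fin n → ℂ) :
    Top.wdg (Fin.append u v) = EW n r u *ᵥ Top.wdg v := by
  rw [wdg_eq, wdg_eq, EW_append, Matrix.mulVec_mulVec]

/-- Cauchy-Binet -/
theorem Gam_wdg (Q : Matrix (Fin n) (Fin n) ℂ) {m : ℕ} (v : Fin m → Fin n → ℂ) :
    Gam Q *ᵥ Top.wdg v = Top.wdg fun k => Q *ᵥ v k := by
  rw [wdg_eq, wdg_eq, Matrix.mulVec_mulVec, Gam_EW, ← Matrix.mulVec_mulVec, Gam_vac']

theorem wdg_lin {m : ℕ} (L : Matrix (Fin m) (Fin m) ℂ) (v : Fin m → Fin n → ℂ) :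
    (Top.wdg fun k => ∑ l, L k l • v l) = L.det • Top.wdg v := by
  ext S
  unfold Top.wdg
  by_cases h : S.card = m
  · simp only [dif_pos h, Pi.smul_apply, smul_eq_mul]
    rw [← Matrix.det_mul]
    congr 1
    ext a b
    simp [Matrix.mul_apply, Finset.sum_apply]
  · simp [dif_neg h]

theorem eW_wdg_of_mem {m : ℕ} {v : Fin m → Fin n → ℂ} {x : Fin n → ℂ}
    (hx : x ∈ Submodule.span ℂ (Set.range v)) : eW x *ᵥ Top.wdg v = 0 := by
  rw [wdg_eq, Matrix.mulVec_mulVec, eW_EW_of_mem hx, Matrix.zero_mulVec]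

theorem eW_wdg_self {m : ℕ} (v : Fin m → Fin n → ℂ) (j : Fin m) : eW (v j) *ᵥ Top.wdg v = 0 :=
  eW_wdg_of_mem (Submodule.subset_span ⟨j, rfl⟩)

theorem iW_wdg_of_ker {m : ℕ} {v : Fin m → Fin n → ℂ} {w : Fin n → ℂ}
    (h : ∀ k, ∑ j, v k j * w j = 0) : iW w *ᵥ Top.wdg v = 0 := by
  rw [wdg_eq, Matrix.mulVec_mulVec, iW_EW_comm w v h, Matrix.smul_mulVec,
    ← Matrix.mulVec_mulVec, iW_vac, Matrix.mulVec_zero, smul_zero]

theorem iW_eW_mulVec (w x : Fin n → ℂ) (f : FI n → ℂ) :
    iW w *ᵥ (eW x *ᵥ f) = (∑ j, x j * w j) • f - eW x *ᵥ (iW w *ᵥ f) :=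
  eq_sub_of_add_eq (mv_eW_iW x w f)

/-- the pairing of a vector with covectors, as a linear functional on covectors -/
def prL (w : Fin n → ℂ) : (Fin n → ℂ) →ₗ[ℂ] ℂ where
  toFun x := ∑ j, x j * w j
  map_add' x y := by simp [add_mul, Finset.sum_add_distrib]
  map_smul' c x := by simp [Finset.mul_sum, mul_assoc]

/-- every functional on covectors is a vector -/
theorem exists_prL (f : (Fin n → ℂ) →ₗ[ℂ] ℂ) : ∃ w : Fin n → ℂ, ∀ x, ∑ j, x j * w j = f x := by
  refine ⟨fun j => f (Pi.single j 1), fun x => ?_⟩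
  conv_rhs => rw [pi_eq_sum_univ' x]
  simp [map_sum]

/-- a dual vector -/
theorem exists_dual {ι : Type*} {v : ι → Fin n → ℂ} {x : Fin n → ℂ}
    (hx : x ∉ Submodule.span ℂ (Set.range v)) :
    ∃ w : Fin n → ℂ, ∑ j, x j * w j = 1 ∧ ∀ k, ∑ j, v k j * w j = 0 := by
  obtain ⟨f, hf1, hf2⟩ := Submodule.exists_dual_map_eq_bot_of_notMem hx inferInstance
  obtain ⟨w, hw⟩ := exists_prL ((f x)⁻¹ • f)
  refine ⟨w, ?_, fun k => ?_⟩
  · rw [hw]; simp [hf1]
  · rw [hw]
    have : f (v k) = 0 := by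
      have h1 : f (v k) ∈ (Submodule.span ℂ (Set.range v)).map f :=
        Submodule.mem_map_of_mem (Submodule.subset_span ⟨k, rfl⟩)
      rwa [hf2, Submodule.mem_bot] at h1
    simp [this]

/-- a covector that kills the common kernel lies in the span -/
theorem mem_span_of_ker {ι : Type*} {v : ι → Fin n → ℂ} {x : Fin n → ℂ}
    (h : ∀ w : Fin n → ℂ, (∀ k, ∑ j, v k j * w j = 0) → ∑ j, x j * w j = 0) :
    x ∈ Submodule.span ℂ (Set.range v) := by
  by_contra hx
  obtain ⟨w, h1, h2⟩ := exists_dual hx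
  rw [h w h2] at h1
  exact zero_ne_one h1

theorem twdg_ne_zero_iff : ∀ {m : ℕ} {v : Fin m → Fin n → ℂ},
    Top.wdg v ≠ 0 ↔ LinearIndependent ℂ v
  | 0, v => by
    refine iff_of_true ?_ linearIndependent_empty_type
    rw [wdg_nil]
    intro h
    simpa [vac] using congrFun h ∅
  | m + 1, v => by
    constructor
    · intro h
      by_contra hv
      apply h
      rw [wdg_eq, (EW n (m + 1)).map_linearDependent v hv, Matrix.zero_mulVec]
    · intro h
      obtain ⟨h1, h2⟩ := linearIndependent_finSucc.1 h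
      obtain ⟨w, hw1, hw2⟩ := exists_dual h2
      intro h0
      have h3 := iW_eW_mulVec w (v 0) (Top.wdg fun k => v k.succ)
      rw [← wdg_succ, h0, Matrix.mulVec_zero, hw1, one_smul,
        iW_wdg_of_ker (v := fun k => v k.succ) hw2, Matrix.mulVec_zero, sub_zero] at h3
      exact (twdg_ne_zero_iff.2 h1) h3.symm

theorem mem_span_of_eW {m : ℕ} {v : Fin m → Fin n → ℂ} (hv : Top.wdg v ≠ 0) {x : Fin n → ℂ}
    (h : eW x *ᵥ Top.wdg v = 0) : x ∈ Submodule.span ℂ (Set.range v) := by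
  refine mem_span_of_ker fun w hw => ?_
  have h3 := iW_eW_mulVec w x (Top.wdg v)
  rw [h, Matrix.mulVec_zero, iW_wdg_of_ker hw, Matrix.mulVec_zero, sub_zero] at h3
  exact (smul_eq_zero.1 h3.symm).resolve_right hv

/-- covectors in the span of `π` have a wedge product proportional to that of `π` -/
theorem wdg_par {m : ℕ} {v π : Fin m → Fin n → ℂ}
    (h : ∀ k, v k ∈ Submodule.span ℂ (Set.range π)) : ∃ c : ℂ, Top.wdg v = c • Top.wdg π := by
  choose L hL using fun k => (Submodule.mem_span_range_iff_exists_fun ℂ).1 (h k)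
  refine ⟨(Matrix.of L).det, ?_⟩
  rw [← wdg_lin]
  congr 1
  funext k
  exact (hL k).symm

/-- the common kernel of a family of covectors -/
def kerF {ι : Type*} (v : ι → Fin n → ℂ) : Submodule ℂ (Fin n → ℂ) where
  carrier := {w | ∀ k, ∑ j, v k j * w j = 0}
  add_mem' {a b} ha hb k := by
    simp only [Pi.add_apply, mul_add, Finset.sum_add_distrib]
    rw [ha k, hb k, add_zero]
  zero_mem' k := by simp
  smul_mem' c a ha k := by
    have := ha k
    simp only [Pi.smul_apply, smul_eq_mul, mul_left_comm _ c, ← Finset.mul_sum, this, mul_zero]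

theorem mem_kerF {ι : Type*} {v : ι → Fin n → ℂ} {w : Fin n → ℂ} :
    w ∈ kerF v ↔ ∀ k, ∑ j, v k j * w j = 0 := Iff.rfl

theorem finrank_ker {m : ℕ} {v : Fin m → Fin n → ℂ} (hv : LinearIndependent ℂ v) :
    Module.finrank ℂ (kerF v) + m = n := by
  have h1 : kerF v = LinearMap.ker (Matrix.of v).mulVecLin := by
    ext w
    rw [mem_kerF, LinearMap.mem_ker, Matrix.mulVecLin_apply, funext_iff]
    rfl
  have h2 := LinearMap.finrank_range_add_finrank_ker (Matrix.of v).mulVecLin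
  have h3 : (Matrix.of v).rank = m := by
    have := LinearIndependent.rank_matrix (M := Matrix.of v) hv
    simpa using this
  rw [h1]
  unfold Matrix.rank at h3
  rw [h3, Module.finrank_fin_fun] at h2
  omega

/-- an `H`-valued covector that kills the common kernel of `π` is a combination of the `π k` -/
theorem exists_fac {m : ℕ} {π : Fin m → Fin n → ℂ} {η : Fin n → W}
    (h : ∀ w : Fin n → ℂ, (∀ k, ∑ j, π k j * w j = 0) → ∑ j, w j • η j = 0) :
    ∃ β : Fin m → W, ∀ j, η j = ∑ k, π k j • β k := by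
  let f := (Matrix.of π).mulVecLin
  let g : (Fin n → ℂ) →ₗ[ℂ] W := Fintype.linearCombination ℂ η
  have hk : LinearMap.ker f ≤ LinearMap.ker g := by
    intro w hw
    rw [LinearMap.mem_ker] at hw ⊢
    exact h w fun k => congrFun hw k
  obtain ⟨s, hs⟩ := f.rangeRestrict.exists_rightInverse_of_surjective f.range_rangeRestrict
  obtain ⟨e, he⟩ := LinearMap.exists_extend (g ∘ₗ s)
  refine ⟨fun k => e (Pi.single k 1), fun j => ?_⟩
  have h1 : ∀ w, e (f w) = g w := by
    intro w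
    have h2 := LinearMap.congr_fun he (f.rangeRestrict w)
    simp only [LinearMap.comp_apply, Submodule.subtype_apply] at h2
    rw [show f w = (f.rangeRestrict w : Fin m → ℂ) from rfl, h2]
    have h3 : s (f.rangeRestrict w) - w ∈ LinearMap.ker f := by
      rw [LinearMap.mem_ker, map_sub, sub_eq_zero]
      exact congrArg Subtype.val (LinearMap.congr_fun hs (f.rangeRestrict w))
    have h4 := hk h3
    rwa [LinearMap.mem_ker, map_sub, sub_eq_zero] at h4
  have h5 := h1 (Pi.single j 1)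
  have h6 : g (Pi.single j 1) = η j := by simp [g, Fintype.linearCombination_apply]
  have h7 : f (Pi.single j 1) = ∑ k, π k j • (Pi.single k 1 : Fin m → ℂ) := by
    ext k
    simp [f, Finset.sum_apply, Pi.single_apply]
  rw [← h6, ← h5, h7, map_sum]
  simp

end

end Crest.Agent.X261.Plk
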