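import Crest.Agent.X261.Plk.B
import Crest.Agent.R266.Osgood

/-!
# Row 261, package PLK (helper91), file `V` : Hilbert space valued holomorphic maps

* `weak_hol` : weakly holomorphic maps into a Hilbert space are holomorphic (Dunford);
* `vext`, `vext_loc` : a map defined on a dense set all of whose scalar components extend
  holomorphically extends holomorphically;
* `Pc H r` : the completed tensor power with `wc` (wedge) and `pmc` (induced isometries).
-/

set_option autoImplicit false
set_option linter.dupNamespace false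

open scoped InnerProductSpace ComplexConjugate Topology
open Set Filter Metric

noncomputable section

namespace Crest.Agent.X261.Plk

attribute [-instance] CStarModule.toInner

section ext

variable {E : Type*} [NormedAddCommGroup E] [NormedSpace ℂ E] [FiniteDimensional ℂ E]
  {W : Type*} [NormedAddCommGroup W] [InnerProductSpace ℂ W] [CompleteSpace W]

omit [CompleteSpace W] in
theorem norm_le_of_inner {y : W} {C : ℝ} (hC : 0 ≤ C) (h : ∀ ξ : W, ‖⟪ξ, y⟫_ℂ‖ ≤ C * ‖ξ‖) :
    ‖y‖ ≤ C := by
  have h1 := h y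
  rw [inner_self_eq_norm_sq_to_K, norm_pow, RCLike.norm_ofReal, abs_norm, sq] at h1
  rcases (norm_nonneg y).eq_or_lt with h0 | h0
  · rw [← h0]; exact hC
  · exact le_of_mul_le_mul_right h1 h0

/-- continuous and weakly holomorphic maps are holomorphic -/
theorem analytic_of_weak {U : Set E} (hU : IsOpen U) {G : E → W} (hc : ContinuousOn G U)
    (h : ∀ ξ : W, DifferentiableOn ℂ (fun y => ⟪ξ, G y⟫_ℂ) U) : AnalyticOnNhd ℂ G U := by
  refine R266.SCV.analyticOnNhd_of_gateaux hU hc fun x hx v => ?_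
  have h1 : Continuous fun z : ℂ => x + z • v := by fun_prop
  obtain ⟨ρ, hρ, hB⟩ := nhds_basis_closedBall.mem_iff.1
    (h1.continuousAt (x := 0).preimage_mem_nhds (by simpa using hU.mem_nhds hx))
  refine (R266.SCV.differentiableOn_of_separating (fun ξ : W => innerSL ℂ ξ)
    (fun a b hab => ext_inner_left ℂ hab) (g := fun z : ℂ => G (x + z • v)) (c := 0) (R := ρ)
    (hc.comp h1.continuousOn hB) fun ξ z hz => ?_).differentiableAt (ball_mem_nhds _ hρ)
  exact ((h ξ).differentiableAt (hU.mem_nhds (hB (ball_subset_closedBall hz)))).comp z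
    (f := fun z : ℂ => x + z • v) (by fun_prop)

/-- **extension of Hilbert space valued maps** -/
theorem vext {U D : Set E} (hU : IsOpen U) (hD : D ⊆ U) (hd : U ⊆ closure D) {F : E → W}
    (h : ∀ ξ : W, ∃ f : E → ℂ, DifferentiableOn ℂ f U ∧ ∀ y ∈ D, f y = ⟪ξ, F y⟫_ℂ) :
    ∃ G : E → W, AnalyticOnNhd ℂ G U ∧ EqOn G F D := by
  choose f hf e using h
  have hfr : ∀ x ∈ U, ∀ V ∈ 𝓝 x, (𝓝[D ∩ V] x).NeBot := fun x hx V hV =>
    mem_closure_iff_nhdsWithin_neBot.1 (by
      rw [mem_closure_iff_frequently]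
      exact ((mem_closure_iff_frequently.1 (hd hx)).and_eventually hV))
  have ht : ∀ ξ, ∀ x ∈ U, ∀ V, Tendsto (f ξ) (𝓝[D ∩ V] x) (𝓝 (f ξ x)) := fun ξ x hx V =>
    ((hf ξ).continuousOn.continuousAt (hU.mem_nhds hx)).tendsto.mono_left nhdsWithin_le_nhds
  -- local bounds
  have hb : ∀ x ∈ U, ∃ ρ > 0, ∃ C ≥ 0, ball x ρ ⊆ U ∧ ∀ ξ, ∀ y ∈ ball x ρ, ‖f ξ y‖ ≤ C * ‖ξ‖ := by
    intro x hx
    obtain ⟨ρ, hρ, hB⟩ := nhds_basis_closedBall.mem_iff.1 (hU.mem_nhds hx)
    have : ProperSpace E := FiniteDimensional.proper ℂ E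
    obtain ⟨C, hC⟩ := banach_steinhaus (ι := ↥(D ∩ closedBall x ρ))
      (g := fun y => innerSL ℂ (F y)) fun ξ => by
        obtain ⟨C, hC⟩ := (isCompact_closedBall x ρ).exists_bound_of_continuousOn
          ((hf ξ).continuousOn.mono hB)
        refine ⟨C, fun y => ?_⟩
        rw [innerSL_apply_apply, norm_inner_symm, ← e ξ y y.2.1]
        exact hC y y.2.2
    refine ⟨ρ, hρ, max C 0, le_max_right _ _, ball_subset_closedBall.trans hB, fun ξ y hy => ?_⟩
    have := hfr y (hB (ball_subset_closedBall hy)) _ (isOpen_ball.mem_nhds hy)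
    refine le_of_tendsto (ht ξ y (hB (ball_subset_closedBall hy)) (ball x ρ)).norm ?_
    filter_upwards [self_mem_nhdsWithin] with z hz
    have h1 := hC ⟨z, hz.1, ball_subset_closedBall hz.2⟩
    rw [innerSL_apply_norm] at h1
    rw [e ξ z hz.1, mul_comm]
    exact (norm_inner_le_norm _ _).trans (by gcongr; exact h1.trans (le_max_left _ _))
  have hrep : ∀ x ∈ U, ∃ g : W, ∀ ξ, ⟪ξ, g⟫_ℂ = f ξ x := by
    intro x hx
    obtain ⟨ρ, hρ, C, -, -, hC⟩ := hb x hx
    have := hfr x hx _ univ_mem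
    have ha : ∀ ξ ζ, f (ξ + ζ) x = f ξ x + f ζ x := fun ξ ζ =>
      tendsto_nhds_unique_of_eventuallyEq (ht _ x hx univ) ((ht _ x hx univ).add (ht _ x hx univ))
        (by filter_upwards [self_mem_nhdsWithin] with z hz
            simp only [e _ z hz.1, inner_add_left])
    have hs : ∀ (c : ℂ) ξ, f (c • ξ) x = conj c * f ξ x := fun c ξ =>
      tendsto_nhds_unique_of_eventuallyEq (ht _ x hx univ) ((ht _ x hx univ).const_mul _)
        (by filter_upwards [self_mem_nhdsWithin] with z hz
            simp only [e _ z hz.1, inner_smul_left])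
    let l : W →L[ℂ] ℂ := LinearMap.mkContinuous
      { toFun := fun ξ => conj (f ξ x)
        map_add' := fun ξ ζ => by rw [ha, map_add]
        map_smul' := fun c ξ => by simp [hs] } C fun ξ => by
          simpa using hC ξ x (mem_ball_self hρ)
    refine ⟨(InnerProductSpace.toDual ℂ W).symm l, fun ξ => ?_⟩
    rw [← inner_conj_symm, InnerProductSpace.toDual_symm_apply]
    exact Complex.conj_conj _
  choose! G hG using hrep
  refine ⟨G, analytic_of_weak hU (fun x hx => ?_) fun ξ => (hf ξ).congr fun y hy => hG y hy ξ,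
    fun y hy => ext_inner_left ℂ fun ξ => by rw [hG y (hD hy), e ξ y hy]⟩
  obtain ⟨ρ, hρ, C, hC0, hB, hC⟩ := hb x hx
  refine ContinuousAt.continuousWithinAt ?_
  have h1 : ∀ y ∈ ball x ρ, ‖G y - G x‖ ≤ 2 * C / ρ * dist y x := by
    intro y hy
    refine norm_le_of_inner (by positivity) fun ξ => ?_
    rw [inner_sub_right, hG y (hB hy), hG x hx, ← dist_eq_norm]
    refine (Complex.dist_le_div_mul_dist_of_mapsTo_ball (R₂ := 2 * C * ‖ξ‖) ((hf ξ).mono hB)
      (fun z hz => ?_) hy).trans_eq (by ring)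
    rw [mem_closedBall, dist_eq_norm]
    have := hC ξ z hz
    have := hC ξ x (mem_ball_self hρ)
    linarith [norm_sub_le (f ξ z) (f ξ x)]
  rw [ContinuousAt, tendsto_iff_norm_sub_tendsto_zero]
  have h2 : Tendsto (fun y => 2 * C / ρ * dist y x) (𝓝 x) (𝓝 0) := by
    have : Continuous fun y => 2 * C / ρ * dist y x := by fun_prop
    simpa using this.tendsto x
  exact squeeze_zero' (Eventually.of_forall fun _ => norm_nonneg _)
    (mem_of_superset (ball_mem_nhds x hρ) h1) h2

/-- **Dunford's theorem** -/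
theorem weak_hol {U : Set E} (hU : IsOpen U) {F : E → W}
    (h : ∀ ξ : W, DifferentiableOn ℂ (fun y => ⟪ξ, F y⟫_ℂ) U) : AnalyticOnNhd ℂ F U := by
  obtain ⟨G, hG, e⟩ := vext hU Subset.rfl subset_closure fun ξ => ⟨_, h ξ, fun _ _ => rfl⟩
  exact hG.congr hU e

omit [FiniteDimensional ℂ E] in
/-- local holomorphic extensions from a dense set glue -/
theorem glue_ext {V : Type*} [NormedAddCommGroup V] [NormedSpace ℂ V] [CompleteSpace V]
    {U D : Set E}
    (hU : IsOpen U) (hd : U ⊆ closure D) {F : E → V}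
    (h : ∀ x ∈ U, ∃ f : E → V, AnalyticAt ℂ f x ∧ ∀ᶠ y in 𝓝 x, y ∈ D → f y = F y) :
    ∃ G : E → V, AnalyticOnNhd ℂ G U ∧ EqOn G F (U ∩ D) := by
  choose! f hf e using h
  refine ⟨fun x => f x x, fun x hx => (hf x hx).congr ?_, fun y hy => (e y hy.1).self_of_nhds hy.2⟩
  filter_upwards [(hf x hx).eventually_analyticAt, (e x hx).eventually_nhds, hU.mem_nhds hx]
    with y h1 h2 h3
  refine tendsto_nhds_unique_of_frequently_eq h1.continuousAt (hf y h3).continuousAt ?_
  refine ((mem_closure_iff_frequently.1 (hd h3)).and_eventually (h2.and (e y h3))).mono ?_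
  rintro z ⟨h4, h5, h6⟩
  rw [h5 h4, h6 h4]

/-- **extension of Hilbert space valued maps**, local form -/
theorem vext_loc {U D : Set E} (hU : IsOpen U) (hd : U ⊆ closure D) {F : E → W}
    (h : ∀ ξ : W, ∀ x ∈ U, ∃ f : E → ℂ, AnalyticAt ℂ f x ∧
      ∀ᶠ y in 𝓝 x, y ∈ D → f y = ⟪ξ, F y⟫_ℂ) :
    ∃ G : E → W, AnalyticOnNhd ℂ G U ∧ EqOn G F (U ∩ D) := by
  refine vext hU inter_subset_left (fun x hx => hU.inter_closure ⟨hx, hd hx⟩) fun ξ => ?_
  obtain ⟨g, hg, e⟩ := glue_ext hU hd (h ξ)
  exact ⟨g, hg.differentiableOn, e⟩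

end ext

/-! ### the completed tensor powers -/

universe u

variable {H H' : Type u} [NormedAddCommGroup H] [InnerProductSpace ℂ H]
  [NormedAddCommGroup H'] [InnerProductSpace ℂ H'] {r : ℕ}

/-- the Hilbert space completion of the tensor power -/
def Pc (H : Type u) [NormedAddCommGroup H] [InnerProductSpace ℂ H] (r : ℕ) : Type u :=
  UniformSpace.Completion (Pw H r)

instance : NormedAddCommGroup (Pc H r) :=
  inferInstanceAs (NormedAddCommGroup (UniformSpace.Completion (Pw H r)))
instance : InnerProductSpace ℂ (Pc H r) :=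
  inferInstanceAs (InnerProductSpace ℂ (UniformSpace.Completion (Pw H r)))
instance : CompleteSpace (Pc H r) :=
  inferInstanceAs (CompleteSpace (UniformSpace.Completion (Pw H r)))

/-- the inclusion into the completion -/
def toPc (H : Type u) [NormedAddCommGroup H] [InnerProductSpace ℂ H] (r : ℕ) :
    Pw H r →ₗᵢ[ℂ] Pc H r := UniformSpace.Completion.toComplₗᵢ

theorem denseRange_toPc : DenseRange (toPc H r) := UniformSpace.Completion.denseRange_coe

/-- the wedge with values in the completion -/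
def wc (H : Type u) [NormedAddCommGroup H] [InnerProductSpace ℂ H] (r : ℕ) :
    H [⋀^Fin r]→L[ℂ] Pc H r :=
  (toPc H r).toContinuousLinearMap.compContinuousAlternatingMap (wdg H r)

theorem wc_apply (v : Fin r → H) : wc H r v = toPc H r (wdg H r v) := rfl

/-- the induced isometry of the completions -/
def pmc (U : H →ₗᵢ[ℂ] H') (r : ℕ) : Pc H r →ₗᵢ[ℂ] Pc H' r where
  toLinearMap := (pmap U r).toContinuousLinearMap.completion.toLinearMap
  norm_map' x := by
    refine denseRange_toPc.induction_on x (isClosed_eq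
      ((pmap U r).toContinuousLinearMap.completion.continuous.norm) continuous_norm) fun a => ?_
    have h : (pmap U r).toContinuousLinearMap.completion a = toPc H' r (pmap U r a) :=
      ContinuousLinearMap.completion_apply_coe _ a
    exact (congrArg norm h).trans (((toPc H' r).norm_map _).trans
      (((pmap U r).norm_map a).trans ((toPc H r).norm_map a).symm))

theorem pmc_toPc (U : H →ₗᵢ[ℂ] H') (a : Pw H r) : pmc U r (toPc H r a) = toPc H' r (pmap U r a) :=
  ContinuousLinearMap.completion_apply_coe (pmap U r).toContinuousLinearMap a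

theorem inner_wc (v w : Fin r → H) :
    ⟪wc H r v, wc H r w⟫_ℂ = (Matrix.of fun i j => ⟪v i, w j⟫_ℂ).det := by
  rw [wc_apply, wc_apply, LinearIsometry.inner_map_map, inner_wdg]

theorem pmc_wc (U : H →ₗᵢ[ℂ] H') (v : Fin r → H) :
    pmc U r (wc H r v) = wc H' r fun i => U (v i) := by
  rw [wc_apply, pmc_toPc, pmap_wdg, wc_apply]

theorem wc_ne_zero_iff {v : Fin r → H} : wc H r v ≠ 0 ↔ LinearIndependent ℂ v := by
  rw [← wdg_ne_zero_iff, wc_apply, Ne, Ne, map_eq_zero_iff _ (toPc H r).injective]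

theorem wc_eq_zero_iff {v : Fin r → H} : wc H r v = 0 ↔ ¬ LinearIndependent ℂ v := by
  rw [← wc_ne_zero_iff, not_not]

theorem wc_mul (A : Matrix (Fin r) (Fin r) ℂ) (v : Fin r → H) :
    wc H r (fun i => ∑ j, A i j • v j) = A.det • wc H r v := by
  rw [wc_apply, wdg_mul, map_smul, wc_apply]

theorem wc_smul (c : ℂ) (v : Fin r → H) : wc H r (fun i => c • v i) = c ^ r • wc H r v := by
  rw [wc_apply, wdg_smul, map_smul, wc_apply]

theorem wc_of_span_le {v w : Fin r → H} (h : ∀ i, w i ∈ Submodule.span ℂ (Set.range v)) :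
    ∃ c : ℂ, wc H r w = c • wc H r v := by
  obtain ⟨c, hc⟩ := exists_smul_of_span_le h
  exact ⟨c, by rw [wc_apply, hc, map_smul, wc_apply]⟩

theorem span_eq_of_wc {v w : Fin r → H} {c : ℂ} (hw : wc H r w ≠ 0)
    (h : wc H r w = c • wc H r v) :
    Submodule.span ℂ (Set.range w) = Submodule.span ℂ (Set.range v) := by
  refine span_eq_of_smul (c := c) (wdg_ne_zero_iff.2 (wc_ne_zero_iff.1 hw)) ?_
  apply (toPc H r).injective
  rw [map_smul]
  exact h

theorem analyticAt_wc {E : Type*} [NormedAddCommGroup E] [NormedSpace ℂ E] {f : Fin r → E → H}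
    {x : E} (hf : ∀ i, AnalyticAt ℂ (f i) x) :
    AnalyticAt ℂ (fun y => wc H r fun i => f i y) x :=
  ((wc H r).toContinuousMultilinearMap.analyticAt (x := fun i => f i x)).comp
    (f := fun y i => f i y) (analyticAt_pi_iff.2 hf)

theorem differentiable_wc : Differentiable ℂ (wc H r) := fun v =>
  ((wc H r).toContinuousMultilinearMap.hasFDerivAt v).differentiableAt

end Crest.Agent.X261.Plk
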