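import Crest.Agent.X261.Plk.D
import Crest.Agent.X261.Plk.V

/-!
# Row 261, GAUSS-LIN (helper91), file `E`: the span of a closed form is constant along its kernel

* `lie`      : Cartan's formula for a closed form and a field in its kernel;
* `ode`      : the coefficients stay in a closed subspace along an integral curve;
* `kerflow`  : a curve in a given characteristic direction along which the span is constant;
* `le_of_fib`, `Hor.le_of_ker` : the two inequalities between `p` and `q + r`.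
-/

set_option autoImplicit false
set_option linter.unusedSectionVars false

open Finset Matrix Filter Topology
open scoped InnerProductSpace

namespace Crest.Agent.X261.Plk

open Crest.Agent.R273.Fock_243 Crest.Agent.R275.Geo
open Crest.Agent.R275.OmT75 (dj)

attribute [-instance] CStarModule.toInner

noncomputable section

universe u

variable {n q r : ℕ}

section lie

variable {H H' : Type*} [NormedAddCommGroup H] [NormedSpace ℂ H] [NormedAddCommGroup H']
  [NormedSpace ℂ H']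

theorem dj_eq_fderiv {f : Cn n → H} {z : Cn n} (hf : DifferentiableAt ℂ f z) (a : Fin n) :
    dj a f z = fderiv ℂ f z (EuclideanSpace.single a 1) := by
  have h2 : fderiv ℝ f z = (fderiv ℂ f z).restrictScalars ℝ := hf.fderiv_restrictScalars ℝ
  have h3 : (EuclideanSpace.single a Complex.I : Cn n)
      = Complex.I • EuclideanSpace.single a (1 : ℂ) := by
    ext b
    by_cases hb : b = a <;> simp [hb]
  unfold dj
  rw [h2, h3]
  simp only [ContinuousLinearMap.coe_restrictScalars', map_smul, smul_smul, Complex.I_mul_I,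
    neg_smul, one_smul, sub_neg_eq_add]
  rw [← two_smul ℂ, smul_smul]
  norm_num

theorem clm_toLp (L : Cn n →L[ℂ] H) (w : Fin n → ℂ) :
    L (WithLp.toLp 2 w) = ∑ b, w b • L (EuclideanSpace.single b 1) := by
  have : (WithLp.toLp 2 w : Cn n) = ∑ b, w b • EuclideanSpace.single b (1 : ℂ) := by
    ext c
    simp [Pi.single_apply]
  rw [this, map_sum]
  simp only [map_smul]

/-- the matrix of the Lie derivative -/
def lieM (v : Cn n → Fin n → ℂ) (z : Cn n) : Matrix (FI n) (FI n) ℂ :=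
  ∑ b, eW (ep b) * iW fun c => fderiv ℂ (fun y => v y c) z (EuclideanSpace.single b 1)

/-- Cartan's formula -/
theorem lie {v : Cn n → Fin n → ℂ} {S : Cn n → FI n → H} {z : Cn n}
    (hv : ∀ c, DifferentiableAt ℂ (fun y => v y c) z)
    (hS : ∀ I, DifferentiableAt ℂ (fun y => S y I) z)
    (hk : ∀ᶠ y in 𝓝 z, mv (iW (v y)) (S y) = 0)
    (hc : ∑ b, mv (eW (ep b)) (fun I => dj b (fun y => S y I) z) = 0) (I : FI n) :
    fderiv ℂ (fun y => S y I) z (WithLp.toLp 2 (v z)) = -mv (lieM v z) (S z) I := by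
  simp only [dj_eq_fderiv (hS _)] at hc
  set D : Fin n → FI n → H := fun b I => fderiv ℂ (fun y => S y I) z (EuclideanSpace.single b 1)
    with hD
  set w : Fin n → Fin n → ℂ :=
    fun b c => fderiv ℂ (fun y => v y c) z (EuclideanSpace.single b 1) with hw
  have h1 : ∀ b, mv (iW (v z)) (D b) = -mv (iW (w b)) (S z) := by
    intro b
    funext K
    have h2 : HasFDerivAt (fun y => ∑ c, v y c • ∑ J, (iW (ep c) : Matrix _ _ ℂ) K J • S y J)
        (∑ c, (v z c • ∑ J, (iW (ep c) : Matrix _ _ ℂ) K J • fderiv ℂ (fun y => S y J) z +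
          (fderiv ℂ (fun y => v y c) z).smulRight
            (∑ J, (iW (ep c) : Matrix _ _ ℂ) K J • S z J))) z :=
      HasFDerivAt.fun_sum fun c _ => (hv c).hasFDerivAt.fun_smul
        (HasFDerivAt.fun_sum fun J _ => (hS J).hasFDerivAt.fun_const_smul _)
    have h3 : HasFDerivAt (fun y => ∑ c, v y c • ∑ J, (iW (ep c) : Matrix _ _ ℂ) K J • S y J)
        (0 : Cn n →L[ℂ] H) z := by
      refine (hasFDerivAt_const (0 : H) z).congr_of_eventuallyEq ?_
      filter_upwards [hk] with y hy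
      have := congrFun hy K
      rw [mv_iW_eq_sum] at this
      exact this
    have h4 := congrArg (fun L : Cn n →L[ℂ] H => L (EuclideanSpace.single b 1)) (h2.unique h3)
    simp only [_root_.sum_apply, _root_.add_apply,
      _root_.smul_apply, ContinuousLinearMap.smulRight_apply,
      _root_.zero_apply, Finset.sum_add_distrib] at h4
    rw [Pi.neg_apply, mv_iW_eq_sum (v z), mv_iW_eq_sum (w b)]
    exact eq_neg_of_add_eq_zero_left h4
  have h5 : mv (iW (v z)) (∑ b, mv (eW (ep b)) (D b)) = 0 := by rw [hc, mv_zero']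
  rw [mv_sum'] at h5
  have h6 : ∀ b, mv (iW (v z)) (mv (eW (ep b)) (D b))
      = v z b • D b + mv (eW (ep b) * iW (w b)) (S z) := by
    intro b
    have h7 := mv_eW_iW (ep b) (v z) (D b)
    have h8 : ∑ j, (ep b : Fin n → ℂ) j * v z j = v z b := by simp [Pi.single_apply]
    have h9 : mv (eW (ep b)) (-mv (iW (w b)) (S z)) = -mv (eW (ep b) * iW (w b)) (S z) := by
      rw [mv_mul, ← neg_one_smul ℂ, mv_smul', neg_one_smul]
    rw [h8, h1, h9] at h7
    exact eq_add_of_add_neg_eq h7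
  simp only [h6, Finset.sum_add_distrib] at h5
  rw [clm_toLp, lieM, mv_sum]
  have h10 := congrFun (eq_neg_of_add_eq_zero_left h5) I
  rw [Finset.sum_apply] at h10
  exact h10

theorem continuousAt_lieM {v : Cn n → Fin n → ℂ} {z : Cn n}
    (hv : ∀ c, AnalyticAt ℂ (fun y => v y c) z) (I J : FI n) :
    ContinuousAt (fun y => lieM v y I J) z := by
  have h1 : ∀ y, lieM v y I J = ∑ b, ∑ c, fderiv ℂ (fun y => v y c) y (EuclideanSpace.single b 1)
      * (eW (ep b) * iW (ep c) : Matrix _ _ ℂ) I J := by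
    intro y
    rw [lieM, Matrix.sum_apply]
    refine Finset.sum_congr rfl fun b _ => ?_
    rw [iW_eq_sum, Finset.mul_sum, Matrix.sum_apply]
    refine Finset.sum_congr rfl fun c _ => ?_
    rw [mul_smul_comm, Matrix.smul_apply, smul_eq_mul]
  simp only [h1]
  refine tendsto_finsetSum _ fun b _ => tendsto_finsetSum _ fun c _ => ?_
  exact ContinuousAt.mul ((hv c).fderiv.continuousAt.clm_apply continuousAt_const)
    continuousAt_const

/-- along an integral curve the coefficients stay in the kernel of `Q` -/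
theorem ode {v : Cn n → Fin n → ℂ} {S : Cn n → FI n → H} {z : Cn n}
    (hv : ∀ c, AnalyticAt ℂ (fun y => v y c) z)
    (hS : ∀ᶠ y in 𝓝 z, ∀ I, DifferentiableAt ℂ (fun y => S y I) y)
    (hk : ∀ᶠ y in 𝓝 z, mv (iW (v y)) (S y) = 0)
    (hc : ∀ᶠ y in 𝓝 z, ∑ b, mv (eW (ep b)) (fun I => dj b (fun y => S y I) y) = 0)
    {γ : ℝ → Cn n} (h0 : γ 0 = z)
    (hγ : ∀ᶠ t in 𝓝 (0 : ℝ), HasDerivAt γ (WithLp.toLp 2 (v (γ t))) t)
    (Q : H →L[ℂ] H') (hQ : ∀ I, Q (S z I) = 0) : ∀ᶠ t in 𝓝 (0 : ℝ), ∀ I, Q (S (γ t) I) = 0 := by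
  have hγ0 : Tendsto γ (𝓝 0) (𝓝 z) := h0 ▸ hγ.self_of_nhds.continuousAt.tendsto
  set N : Cn n → ℝ := fun y => ∑ I, ∑ J, ‖lieM v y I J‖
  have hN : ContinuousAt N z := tendsto_finsetSum _ fun I _ => tendsto_finsetSum _ fun J _ =>
    (continuousAt_lieM hv I J).norm
  have hN' : ∀ᶠ y in 𝓝 z, N y < N z + 1 := hN.eventually (gt_mem_nhds (lt_add_one _))
  have hv' : ∀ᶠ y in 𝓝 z, ∀ c, DifferentiableAt ℂ (fun y => v y c) y :=
    eventually_all.2 fun c => (hv c).eventually_analyticAt.mono fun y hy => hy.differentiableAt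
  have key : (fun t I => Q (S (γ t) I)) =ᶠ[𝓝 0] fun _ => (0 : FI n → H') := by
    refine ODE_solution_unique_of_eventually (v := fun t s => -mv (lieM v (γ t)) s)
      (s := fun _ => Set.univ) (K := Real.toNNReal (N z + 1)) ?_ ?_ ?_ ?_
    · filter_upwards [hγ0.eventually hN'] with t ht
      refine LipschitzWith.lipschitzOnWith (LipschitzWith.of_dist_le_mul fun a b => ?_)
      rw [dist_neg_neg, dist_eq_norm, dist_eq_norm]
      have e1 : mv (lieM v (γ t)) a - mv (lieM v (γ t)) b = mv (lieM v (γ t)) (a - b) := by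
        rw [sub_eq_iff_eq_add, ← mv_add', sub_add_cancel]
      rw [e1]
      refine (pi_norm_le_iff_of_nonneg (by positivity)).2 fun I => ?_
      refine (norm_mv_le _ (norm_le_pi_norm (a - b)) I).trans
        (mul_le_mul_of_nonneg_right ?_ (norm_nonneg _))
      refine le_trans ?_ (ht.le.trans (Real.le_coe_toNNReal _))
      exact Finset.single_le_sum (f := fun I => ∑ J, ‖lieM v (γ t) I J‖)
        (fun _ _ => by positivity) (Finset.mem_univ I)
    · filter_upwards [hγ, hγ0.eventually hv', hγ0.eventually hS,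
        hγ0.eventually hk.eventually_nhds, hγ0.eventually hc] with t h1 h2 h3 h4 h5
      refine ⟨hasDerivAt_pi.2 fun I => ?_, trivial⟩
      have h6 := (((h3 I).hasFDerivAt.restrictScalars ℝ).comp_hasDerivAt t h1)
      have h7 := (Q.restrictScalars ℝ).hasFDerivAt.comp_hasDerivAt t h6
      simp only [ContinuousLinearMap.coe_restrictScalars'] at h7
      rw [lie h2 h3 h4 h5, map_neg] at h7
      have h8 := congrFun (mv_map (Q : H →ₗ[ℂ] H') (lieM v (γ t)) (S (γ t))) I
      simp only [ContinuousLinearMap.coe_coe] at h8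
      rw [Pi.neg_apply, h8]
      exact h7
    · exact Eventually.of_forall fun t => ⟨by simpa using hasDerivAt_const t (0 : FI n → H'),
        trivial⟩
    · funext I
      rw [h0]
      exact hQ I
  filter_upwards [key] with t ht I using congrFun ht I

end lie

section flow

variable {H : Type u} [NormedAddCommGroup H] [InnerProductSpace ℂ H]

/-- a scalar alternating form that does not vanish on a given independent family -/
theorem exists_alt {β : Fin r → H} (hβ : LinearIndependent ℂ β) :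
    ∃ G : H [⋀^Fin r]→L[ℂ] ℂ, G β ≠ 0 :=
  ⟨(innerSL ℂ (wdg H r β)).compContinuousAlternatingMap (wdg H r), by
    simpa using wdg_ne_zero_iff.2 hβ⟩

/-- the rank is lower semicontinuous along horizontal families -/
theorem eventually_le_finrank {th : Cn n → Fin q → Fin n → ℂ} {S : Cn n → FI n → H} {z : Cn n}
    (hth : ∀ k j, DifferentiableAt ℂ (fun y => th y k j) z)
    (hS : ∀ I, DifferentiableAt ℂ (fun y => S y I) z) (hh : Hor (th z) (S z))
    (hτ : Top.wdg (th z) ≠ 0)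
    (hr : Module.finrank ℂ (Submodule.span ℂ (Set.range (S z))) = r) :
    ∀ᶠ y in 𝓝 z, r ≤ Module.finrank ℂ (Submodule.span ℂ (Set.range (S y))) := by
  obtain ⟨β, hβ, hs⟩ := exists_basis hr
  obtain ⟨G, hG⟩ := exists_alt hβ
  obtain ⟨J, hJ⟩ := Function.ne_iff.1 hτ
  obtain ⟨c, hc, h1⟩ := hh.rank_one G.toAlternatingMap hτ hβ hs
  obtain ⟨I, hI⟩ := Function.ne_iff.1 hc
  have h2 : Th G.toAlternatingMap (th z) (S z) J I ≠ 0 := by
    rw [hh.Th_eq, Pi.smul_apply, h1]
    exact smul_ne_zero (pow_ne_zero _ hJ) (smul_ne_zero hI hG)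
  filter_upwards [(differentiableAt_Th G hth hS J I).continuousAt.eventually_ne h2] with y hy
  by_contra h3
  exact hy (congrFun (Th_eq_zero _ _ (not_le.1 h3) J) I)

/-- a holomorphic characteristic vector field, transversal to a given covector -/
theorem exists_field {th : Cn n → Fin q → Fin n → ℂ} {S : Cn n → FI n → H} {z : Cn n}
    (hth : ∀ᶠ y in 𝓝 z, ∀ k j, DifferentiableAt ℂ (fun y => th y k j) y)
    (hS : ∀ᶠ y in 𝓝 z, ∀ I, DifferentiableAt ℂ (fun y => S y I) y)
    (hh : ∀ᶠ y in 𝓝 z, Hor (th y) (S y))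
    (hle : ∀ᶠ y in 𝓝 z, Module.finrank ℂ (Submodule.span ℂ (Set.range (S y))) ≤ r)
    (hτ : Top.wdg (th z) ≠ 0)
    (hr : Module.finrank ℂ (Submodule.span ℂ (Set.range (S z))) = r) {x : Fin n → ℂ}
    (hx : ¬ ∀ w ∈ kerS (th z) (S z), ∑ j, x j * w j = 0) :
    ∃ v : Cn n → Fin n → ℂ, (∀ c, AnalyticAt ℂ (fun y => v y c) z) ∧
      (∀ᶠ y in 𝓝 z, v y ∈ kerS (th y) (S y)) ∧ ∑ j, x j * v z j ≠ 0 := by
  obtain ⟨β, hβ, hs⟩ := exists_basis hr
  obtain ⟨G, hG⟩ := exists_alt hβ
  obtain ⟨J, hJ⟩ := Function.ne_iff.1 hτ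
  have hω : ∀ y, Hor (th y) (S y) → Top.wdg (th y) ≠ 0 → ∀ β : Fin r → H, LinearIndependent ℂ β →
      Submodule.span ℂ (Set.range β) = Submodule.span ℂ (Set.range (S y)) →
      ∃ μ : Fin (r + q) → Fin n → ℂ, Top.wdg μ ≠ 0 ∧ kerS (th y) (S y) = kerF μ ∧
        Th G.toAlternatingMap (th y) (S y) J
          = (Top.wdg (th y) J ^ r * r.factorial * G β) • Top.wdg μ := by
    intro y h1 h2 β h3 h4
    obtain ⟨μ, h5, h6, h7⟩ := h1.dec G.toAlternatingMap h2 h3 h4
    refine ⟨μ, h5, h6, funext fun I => ?_⟩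
    rw [h1.Th_eq, Pi.smul_apply, h7]
    simp only [smul_eq_mul, Pi.smul_apply, ContinuousAlternatingMap.coe_toAlternatingMap]
    ring
  have hev : ∀ (x : Fin n → ℂ) (ω : FI n → ℂ) (K : FI n),
      ∑ j, x j * (eW (ep j : Fin n → ℂ) *ᵥ ω) K = (eW x *ᵥ ω) K := by
    intro x ω K
    rw [eW_eq_sum x, Matrix.sum_mulVec, Finset.sum_apply]
    simp only [Matrix.smul_mulVec, Pi.smul_apply, smul_eq_mul]
  obtain ⟨μ, h1, h2, h3⟩ := hω z hh.self_of_nhds hτ β hβ hs
  have h4 : eW x *ᵥ Top.wdg μ ≠ 0 := fun h0 => hx fun w hw => by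
    rw [h2] at hw
    obtain ⟨c, rfl⟩ := (Submodule.mem_span_range_iff_exists_fun ℂ).1 (mem_span_of_eW h1 h0)
    have := map_sum (prL w) (fun k => c k • μ k) Finset.univ
    refine this.trans (Finset.sum_eq_zero fun k _ => ?_)
    rw [map_smul, show prL w (μ k) = 0 from hw k, smul_zero]
  obtain ⟨K, hK⟩ := Function.ne_iff.1 h4
  refine ⟨fun y j => (eW (ep j : Fin n → ℂ) *ᵥ Th G.toAlternatingMap (th y) (S y) J) K,
    fun c => ?_, ?_, ?_⟩
  · refine R266.SCV.analyticAt_of_eventually_differentiableAt ?_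
    filter_upwards [hth, hS] with y h5 h6
    exact differentiableAt_mv (B := fun _ => eW (ep c)) (fun _ _ => differentiableAt_const _)
      (differentiableAt_Th G h5 h6 J) K
  · filter_upwards [hh, hle, eventually_le_finrank hth.self_of_nhds hS.self_of_nhds
      hh.self_of_nhds hτ hr,
      (differentiableAt_twdg hth.self_of_nhds J).continuousAt.eventually_ne hJ] with y h5 h6 h7 h8
    obtain ⟨β', hβ', hs'⟩ := exists_basis (le_antisymm h6 h7)
    obtain ⟨μ', -, h9, h10⟩ := hω y h5 (Function.ne_iff.2 ⟨J, h8⟩) β' hβ' hs'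
    rw [h9]
    intro k
    rw [hev, h10, Matrix.mulVec_smul, eW_wdg_self, smul_zero, Pi.zero_apply]
  · rw [hev, h3, Matrix.mulVec_smul, Pi.smul_apply]
    exact smul_ne_zero (mul_ne_zero (mul_ne_zero (pow_ne_zero _ hJ)
      (Nat.cast_ne_zero.2 r.factorial_ne_zero)) hG) hK

/-- **KERFLOW** -/
theorem kerflow {th : Cn n → Fin q → Fin n → ℂ} {S : Cn n → FI n → H} {z : Cn n}
    (hth : ∀ᶠ y in 𝓝 z, ∀ k j, DifferentiableAt ℂ (fun y => th y k j) y)
    (hS : ∀ᶠ y in 𝓝 z, ∀ I, DifferentiableAt ℂ (fun y => S y I) y)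
    (hh : ∀ᶠ y in 𝓝 z, Hor (th y) (S y))
    (hc : ∀ᶠ y in 𝓝 z, ∑ b, mv (eW (ep b)) (fun I => dj b (fun y => S y I) y) = 0)
    (hle : ∀ᶠ y in 𝓝 z, Module.finrank ℂ (Submodule.span ℂ (Set.range (S y))) ≤ r)
    (hτ : Top.wdg (th z) ≠ 0)
    (hr : Module.finrank ℂ (Submodule.span ℂ (Set.range (S z))) = r) {x : Fin n → ℂ}
    (hx : ¬ ∀ w ∈ kerS (th z) (S z), ∑ j, x j * w j = 0) :
    ∃ (γ : ℝ → Cn n) (w : Fin n → ℂ), γ 0 = z ∧ HasDerivAt γ (WithLp.toLp 2 w) 0 ∧
      w ∈ kerS (th z) (S z) ∧ ∑ j, x j * w j ≠ 0 ∧ ∀ᶠ t in 𝓝 (0 : ℝ),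
        Submodule.span ℂ (Set.range (S (γ t))) = Submodule.span ℂ (Set.range (S z)) := by
  obtain ⟨v, hv, hk, hx'⟩ := exists_field hth hS hh hle hτ hr hx
  have hV : ContDiffAt ℝ 1 (fun y => (WithLp.toLp 2 (v y) : Cn n)) z := by
    have h1 : AnalyticAt ℂ (fun y => (WithLp.toLp 2 (v y) : Cn n)) z :=
      ((EuclideanSpace.equiv (Fin n) ℂ).symm.analyticAt _).comp (AnalyticAt.pi hv)
    exact (h1.contDiffAt (n := 1)).restrict_scalars ℝ
  obtain ⟨γ, h0, ε, hε, hγ⟩ :=
    hV.exists_forall_mem_closedBall_exists_eq_forall_mem_Ioo_hasDerivAt₀ 0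
  have hγ' : ∀ᶠ t in 𝓝 (0 : ℝ), HasDerivAt γ (WithLp.toLp 2 (v (γ t))) t :=
    Filter.eventually_of_mem (Ioo_mem_nhds (by linarith) (by linarith)) hγ
  have hγ0 : Tendsto γ (𝓝 0) (𝓝 z) := h0 ▸ hγ'.self_of_nhds.continuousAt.tendsto
  set T := Submodule.span ℂ (Set.range (S z))
  have : FiniteDimensional ℂ T := FiniteDimensional.span_of_finite ℂ (Set.finite_range _)
  have h1 := ode hv hS (hk.mono fun y hy => hy.2) hc h0 hγ'
    (ContinuousLinearMap.id ℂ H - T.starProjection) fun I => by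
      rw [_root_.sub_apply, ContinuousLinearMap.id_apply,
        Submodule.starProjection_eq_self_iff.2 (mem_span_self (S z) I), sub_self]
  refine ⟨γ, v z, h0, h0 ▸ hγ'.self_of_nhds, hk.self_of_nhds, hx', ?_⟩
  filter_upwards [h1, hγ0.eventually (eventually_le_finrank hth.self_of_nhds hS.self_of_nhds
    hh.self_of_nhds hτ hr)] with t h2 h3
  refine Submodule.eq_of_le_of_finrank_le (Submodule.span_le.2 ?_) (hr ▸ h3)
  rintro _ ⟨I, rfl⟩
  have h4 := h2 I
  rw [_root_.sub_apply, ContinuousLinearMap.id_apply, sub_eq_zero] at h4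
  exact Submodule.starProjection_eq_self_iff.1 h4.symm

theorem card_le_of_mem_span {a b : ℕ} {u : Fin a → Fin n → ℂ} {w : Fin b → Fin n → ℂ}
    (hu : LinearIndependent ℂ u) (h : ∀ k, u k ∈ Submodule.span ℂ (Set.range w)) : a ≤ b := by
  have h1 : LinearIndependent ℂ fun k => (⟨u k, h k⟩ : Submodule.span ℂ (Set.range w)) :=
    LinearIndependent.of_comp (Submodule.subtype _) hu
  have := FiniteDimensional.span_of_finite ℂ (Set.finite_range w)
  have h2 := h1.fintype_card_le_finrank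
  have h3 := finrank_range_le_card (R := ℂ) w
  rw [Fintype.card_fin] at h2 h3
  exact h2.trans h3

/-- if the classes lie in the fibres of a submersion to `ℂ^p` then `p ≤ q + r` -/
theorem le_of_fib {th : Cn n → Fin q → Fin n → ℂ} {S : Cn n → FI n → H} {z : Cn n}
    (hth : ∀ᶠ y in 𝓝 z, ∀ k j, DifferentiableAt ℂ (fun y => th y k j) y)
    (hS : ∀ᶠ y in 𝓝 z, ∀ I, DifferentiableAt ℂ (fun y => S y I) y)
    (hh : ∀ᶠ y in 𝓝 z, Hor (th y) (S y))
    (hc : ∀ᶠ y in 𝓝 z, ∑ b, mv (eW (ep b)) (fun I => dj b (fun y => S y I) y) = 0)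
    (hle : ∀ᶠ y in 𝓝 z, Module.finrank ℂ (Submodule.span ℂ (Set.range (S y))) ≤ r)
    (hτ : Top.wdg (th z) ≠ 0)
    (hr : Module.finrank ℂ (Submodule.span ℂ (Set.range (S z))) = r)
    {p : ℕ} {f : Fin p → Cn n → ℂ} (hf : ∀ k, DifferentiableAt ℂ (f k) z)
    (hp : (Top.wdg fun k b => dj b (f k) z) ≠ 0)
    (hfib : ∀ᶠ y in 𝓝 z, Submodule.span ℂ (Set.range (S y)) = Submodule.span ℂ (Set.range (S z)) →
      ∀ k, f k y = f k z) : p ≤ q + r := by
  by_cases hx : ∀ k, ∀ w ∈ kerS (th z) (S z), ∑ j, dj j (f k) z * w j = 0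
  · obtain ⟨β, hβ, hs⟩ := exists_basis hr
    obtain ⟨μ, -, h2, -⟩ := hh.self_of_nhds.dec (0 : H [⋀^Fin r]→ₗ[ℂ] H) hτ hβ hs
    rw [add_comm]
    exact card_le_of_mem_span (w := μ) (twdg_ne_zero_iff.1 hp) fun k =>
      mem_span_of_ker fun w hw => hx k w (h2 ▸ hw)
  · exfalso
    obtain ⟨k, hk⟩ := not_forall.1 hx
    obtain ⟨γ, w, h0, hγ, -, hw, h1⟩ := kerflow hth hS hh hc hle hτ hr hk
    have hγ0 : Tendsto γ (𝓝 0) (𝓝 z) := h0 ▸ hγ.continuousAt.tendsto
    have h2 : HasFDerivAt (f k) ((fderiv ℂ (f k) z).restrictScalars ℝ) (γ 0) :=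
      h0 ▸ (hf k).hasFDerivAt.restrictScalars ℝ
    have h3 := h2.comp_hasDerivAt (0 : ℝ) hγ
    have h4 : HasDerivAt (f k ∘ γ) 0 0 := by
      refine (hasDerivAt_const (0 : ℝ) (f k z)).congr_of_eventuallyEq ?_
      filter_upwards [h1, hγ0.eventually hfib] with t h5 h6 using h6 h5 k
    have h5 := h3.unique h4
    rw [ContinuousLinearMap.coe_restrictScalars', clm_toLp] at h5
    refine hw (Eq.trans (Finset.sum_congr rfl fun j _ => ?_) h5)
    rw [dj_eq_fderiv (hf k), smul_eq_mul, mul_comm]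

end flow

/-- if the kernel of `p` covectors is characteristic then `q + r ≤ p` -/
theorem Hor.le_of_ker {H : Type*} [AddCommGroup H] [Module ℂ H] {th : Fin q → Fin n → ℂ}
    {S : FI n → H} (h : Hor th S) (hτ : Top.wdg th ≠ 0)
    (hr : Module.finrank ℂ (Submodule.span ℂ (Set.range S)) = r) {p : ℕ}
    {π : Fin p → Fin n → ℂ} (hk : ∀ w ∈ kerF π, w ∈ kerS th S) : q + r ≤ p := by
  obtain ⟨β, hβ, hs⟩ := exists_basis hr
  obtain ⟨μ, h1, h2, -⟩ := h.dec (0 : H [⋀^Fin r]→ₗ[ℂ] H) hτ hβ hs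
  rw [add_comm]
  exact card_le_of_mem_span (w := π) (twdg_ne_zero_iff.1 h1) fun k =>
    mem_span_of_ker fun w hw => (h2 ▸ hk w hw : w ∈ kerF μ) k

end

end Crest.Agent.X261.Plk
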