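import Crest.Agent.X261.Plk.Wt

/-!
# Row 261, GAUSS-LIN (helper91), file `Wm`: the form of `exists_psi` used by the main theorem
-/

set_option autoImplicit false
set_option linter.unusedSectionVars false

open Set Filter Topology

namespace Crest.Agent.X261.Plk

open Crest.Agent.R273.Fock_243 Crest.Agent.R275.Geo Crest.Agent.R275.Core144
open Crest.Agent.R273.UCov_914
open Crest.Agent.X261.Gauss (Frm dV)
open Crest.Agent.X261.Top (dW Fol)

noncomputable section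

variable {n q r : ℕ} {X : Type} [TopologicalSpace X] {A : Atl n X} {G : Type} [Group G]
  {D : MonD A G} {H : Type} [NormedAddCommGroup H] [InnerProductSpace ℂ H]

theorem psi_main [PreconnectedSpace (D.cov G)] (Φ : Frm D q H) {p : ℕ} (F : Fol D p)
    (hp : ∃ i v, ∃ O : Set X, IsOpen O ∧ O.Nonempty ∧ O ⊆ (A.e i).source ∧ ∀ x ∈ O,
      ∃ Ψ : Pc H r, ∀ I, Sp (wc H r).toAlternatingMap (dV A i (Φ.a i v) x) (Φ.S i v x) I
        = F.e i x I • Ψ) :
    ∃ Ψ : A.ι → G → X → Pc H r,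
      (∀ i v, DifferentiableOn ℂ (fun z => Ψ i v ((A.e i).symm z)) (A.e i).target) ∧
      (∀ i j v, ∀ x ∈ (A.e i).source ∩ (A.e j).source,
        Ψ i v x = F.L.g i j x • Ψ j (D.c i j x * v) x) ∧
      (∀ g : G, ∃ c : ℂ, ‖c‖ = 1 ∧ ∀ i v, ∀ x ∈ (A.e i).source,
        Ψ i (v * g⁻¹) x = c • pmc (Φ.ρ g).toLinearIsometry r (Ψ i v x)) ∧
      ∀ i v, ∀ x ∈ (A.e i).source, dW A i (Φ.a i v) x ≠ 0 → ∀ I,
        Sp (wc H r).toAlternatingMap (dV A i (Φ.a i v) x) (Φ.S i v x) I = F.e i x I • Ψ i v x := by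
  obtain ⟨i, v, O, hO, ⟨x, hx⟩, hs, h⟩ := hp
  obtain ⟨Ψ, hΨ⟩ := exists_psi Φ (wc H r) F.tom F.cop ⟨i, v, x, hs hx, by
    filter_upwards [hO.mem_nhds hx] with y hy
    obtain ⟨P, hP⟩ := h y hy
    rw [show Fr.sp Φ (wc H r).toAlternatingMap i v y = fun I => F.e i y I • P from funext hP]
    exact parV_smul _ _⟩
  exact ⟨Ψ, fun i v => (hΨ.hol i v).differentiableOn, fun i j v _ hx => hΨ.tr F.tom F.cop i j v hx,
    hΨ.eqv F.cop, hΨ.eq⟩

end

end Crest.Agent.X261.Plk
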