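import Crest.Agent.X261.Plk.A
import Mathlib.Analysis.Complex.Basic

/-!
# Row 261, package PLK (helper91), file `B` : the sine distance of two lines

* `w2 a b` : wedge of two vectors, `‖w2 a b‖ ^ 2 = ‖a‖ ^ 2 ‖b‖ ^ 2 - |⟪a, b⟫| ^ 2`;
* `sn a b` : sine of the Fubini–Study angle: symmetric, exact triangle inequality;
* families `a : ι → W` of rank at most one (`R1 a`), `fn a`, `wf a b`, `snf a b`
  (line bundle free form: the coefficients of a `W`-valued form in a chart).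
-/

set_option autoImplicit false
set_option linter.dupNamespace false
set_option linter.unusedSectionVars false

open scoped InnerProductSpace TensorProduct ComplexConjugate ENNReal
open Finset

noncomputable section

namespace Crest.Agent.X261.Plk

variable {W W' : Type*} [NormedAddCommGroup W] [InnerProductSpace ℂ W]
  [NormedAddCommGroup W'] [InnerProductSpace ℂ W']

/-- the tensor square -/
def T2 (W : Type*) [NormedAddCommGroup W] [InnerProductSpace ℂ W] := W ⊗[ℂ] W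

instance : NormedAddCommGroup (T2 W) := TensorProduct.instNormedAddCommGroup (𝕜 := ℂ)
instance : InnerProductSpace ℂ (T2 W) := TensorProduct.instInnerProductSpace (𝕜 := ℂ)

/-- the tensor product of two vectors -/
def tm (W : Type*) [NormedAddCommGroup W] [InnerProductSpace ℂ W] : W →L[ℂ] W →L[ℂ] T2 W :=
  TensorProduct.mkL ℂ W W

theorem inner_tm (x x' y y' : W) : ⟪tm W x y, tm W x' y'⟫_ℂ = ⟪x, x'⟫_ℂ * ⟪y, y'⟫_ℂ :=
  TensorProduct.inner_tmul ℂ x x' y y'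

/-- the wedge of two vectors -/
def w2 (a b : W) : T2 W := (((√2)⁻¹ : ℝ) : ℂ) • (tm W a b - tm W b a)

theorem inner_w2 (a b c d : W) :
    ⟪w2 a b, w2 c d⟫_ℂ = ⟪a, c⟫_ℂ * ⟪b, d⟫_ℂ - ⟪a, d⟫_ℂ * ⟪b, c⟫_ℂ := by
  have h : (((√2)⁻¹ : ℝ) : ℂ) * (((√2)⁻¹ : ℝ) : ℂ) * 2 = 1 := by
    rw [← Complex.ofReal_mul, ← mul_inv, Real.mul_self_sqrt zero_le_two]
    norm_num
  simp only [w2, inner_smul_left, inner_smul_right, inner_sub_left, inner_sub_right,
    inner_tm, Complex.conj_ofReal]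
  linear_combination (⟪a, c⟫_ℂ * ⟪b, d⟫_ℂ - ⟪a, d⟫_ℂ * ⟪b, c⟫_ℂ) * h

theorem norm_w2_sq (a b : W) : ‖w2 a b‖ ^ 2 = ‖a‖ ^ 2 * ‖b‖ ^ 2 - ‖⟪a, b⟫_ℂ‖ ^ 2 := by
  have h := inner_w2 a b a b
  rw [inner_self_eq_norm_sq_to_K, inner_self_eq_norm_sq_to_K, inner_self_eq_norm_sq_to_K,
    ← inner_conj_symm b a, Complex.mul_conj, Complex.normSq_eq_norm_sq] at h
  have : ((‖w2 a b‖ ^ 2 : ℝ) : ℂ) = ((‖a‖ ^ 2 * ‖b‖ ^ 2 - ‖⟪a, b⟫_ℂ‖ ^ 2 : ℝ) : ℂ) := by
    push_cast at h ⊢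
    exact h
  exact_mod_cast this

theorem w2_self (a : W) : w2 a a = 0 := by simp [w2]

theorem w2_swap (a b : W) : w2 b a = -w2 a b := by rw [w2, w2, ← smul_neg, neg_sub]

theorem norm_w2_comm (a b : W) : ‖w2 b a‖ = ‖w2 a b‖ := by rw [w2_swap, norm_neg]

theorem w2_add_left (a a' b : W) : w2 (a + a') b = w2 a b + w2 a' b := by
  simp only [w2, map_add, add_apply, ← smul_add]
  congr 1
  abel

theorem w2_smul_left (c : ℂ) (a b : W) : w2 (c • a) b = c • w2 a b := by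
  simp only [w2, map_smul, smul_apply, ← smul_sub]
  rw [smul_comm]

theorem w2_add_right (a b b' : W) : w2 a (b + b') = w2 a b + w2 a b' := by
  rw [w2_swap, w2_add_left, w2_swap a b, w2_swap a b']; abel

theorem w2_smul_right (c : ℂ) (a b : W) : w2 a (c • b) = c • w2 a b := by
  rw [w2_swap, w2_smul_left, w2_swap a b, smul_neg, neg_neg]

theorem w2_sub_left (a a' b : W) : w2 (a - a') b = w2 a b - w2 a' b := by
  rw [eq_sub_iff_add_eq, ← w2_add_left, sub_add_cancel]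

theorem w2_zero_left (b : W) : w2 0 b = 0 := by simp [w2]

theorem w2_zero_right (a : W) : w2 a 0 = 0 := by simp [w2]

theorem norm_w2_le (a b : W) : ‖w2 a b‖ ≤ ‖a‖ * ‖b‖ := by
  refine (pow_le_pow_iff_left₀ (norm_nonneg _) (by positivity) two_ne_zero).1 ?_
  rw [norm_w2_sq, mul_pow]
  have := sq_nonneg ‖⟪a, b⟫_ℂ‖
  linarith

/-- (R) -/
theorem norm_w2_le_sub (a b : W) : ‖w2 a b‖ ≤ ‖a - b‖ * ‖b‖ := by
  have := norm_w2_le (a - b) b
  rwa [w2_sub_left, w2_self, sub_zero] at this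

theorem norm_w2_map (U : W →ₗᵢ[ℂ] W') (a b : W) : ‖w2 (U a) (U b)‖ = ‖w2 a b‖ := by
  refine (pow_left_inj₀ (norm_nonneg _) (norm_nonneg _) two_ne_zero).1 ?_
  rw [norm_w2_sq, norm_w2_sq, U.norm_map, U.norm_map, U.inner_map_map]

theorem norm_perp (a b : W) :
    ‖((‖b‖ ^ 2 : ℝ) : ℂ) • a - ⟪b, a⟫_ℂ • b‖ = ‖b‖ * ‖w2 a b‖ := by
  refine (pow_left_inj₀ (norm_nonneg _) (by positivity) two_ne_zero).1 ?_
  rw [mul_pow, norm_w2_sq, @norm_sub_sq ℂ, inner_smul_left, inner_smul_right, norm_smul, norm_smul,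
    ← inner_conj_symm a b, Complex.mul_conj, Complex.conj_ofReal, Complex.normSq_eq_norm_sq,
    RCLike.norm_conj, ← Complex.ofReal_mul, Complex.norm_real, Real.norm_of_nonneg (sq_nonneg _)]
  simp only [RCLike.re_to_complex, Complex.ofReal_re]
  ring

theorem exists_smul_of_w2 {a b : W} (hb : b ≠ 0) (h : w2 a b = 0) : ∃ c : ℂ, a = c • b := by
  have h1 := norm_perp a b
  rw [h, norm_zero, mul_zero, norm_eq_zero, sub_eq_zero] at h1
  have h2 : ((‖b‖ ^ 2 : ℝ) : ℂ) ≠ 0 := by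
    exact_mod_cast pow_ne_zero 2 (norm_ne_zero_iff.2 hb)
  exact ⟨((‖b‖ ^ 2 : ℝ) : ℂ)⁻¹ * ⟪b, a⟫_ℂ, by rw [mul_smul, ← h1, inv_smul_smul₀ h2]⟩

theorem w2_eq_zero_iff {a b : W} (hb : b ≠ 0) : w2 a b = 0 ↔ ∃ c : ℂ, a = c • b :=
  ⟨exists_smul_of_w2 hb, fun ⟨c, hc⟩ => by rw [hc, w2_smul_left, w2_self, smul_zero]⟩

/-- the triangle inequality in homogeneous form -/
theorem w2_tri (a b c : W) : ‖b‖ * ‖w2 a c‖ ≤ ‖w2 a b‖ * ‖c‖ + ‖a‖ * ‖w2 b c‖ := by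
  rcases eq_or_ne b 0 with rfl | hb
  · rw [norm_zero, zero_mul]; positivity
  have hb' : 0 < ‖b‖ := norm_pos_iff.2 hb
  have h1 : ((‖b‖ ^ 2 : ℝ) : ℂ) • w2 a c =
      w2 (((‖b‖ ^ 2 : ℝ) : ℂ) • a - ⟪b, a⟫_ℂ • b) c + ⟪b, a⟫_ℂ • w2 b c := by
    rw [w2_sub_left, w2_smul_left, w2_smul_left, sub_add_cancel]
  have h2 : ‖b‖ ^ 2 * ‖w2 a c‖ ≤ ‖b‖ * ‖w2 a b‖ * ‖c‖ + ‖b‖ * ‖a‖ * ‖w2 b c‖ := by
    have h3 := congrArg norm h1
    rw [norm_smul, Complex.norm_real, Real.norm_of_nonneg (sq_nonneg _)] at h3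
    rw [h3, ← norm_perp]
    refine (norm_add_le _ _).trans (add_le_add (norm_w2_le _ _) ?_)
    rw [norm_smul]
    gcongr
    exact norm_inner_le_norm _ _
  refine le_of_mul_le_mul_left ?_ hb'
  nlinarith

/-- `w2` as a continuous bilinear map -/
def w2L (W : Type*) [NormedAddCommGroup W] [InnerProductSpace ℂ W] : W →L[ℂ] W →L[ℂ] T2 W :=
  LinearMap.mkContinuous₂
    (LinearMap.mk₂ ℂ w2 w2_add_left w2_smul_left w2_add_right w2_smul_right) 1 fun a b => by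
      simpa using norm_w2_le a b

@[simp] theorem w2L_apply (a b : W) : w2L W a b = w2 a b := rfl

theorem continuous_w2 : Continuous fun p : W × W => w2 p.1 p.2 := (w2L W).continuous₂

/-! ### the sine distance -/

/-- sine of the angle between the lines through `a` and `b` -/
def sn (a b : W) : ℝ := ‖w2 a b‖ / (‖a‖ * ‖b‖)

theorem sn_nonneg (a b : W) : 0 ≤ sn a b := by unfold sn; positivity

theorem sn_le_one (a b : W) : sn a b ≤ 1 := div_le_one_of_le₀ (norm_w2_le a b) (by positivity)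

theorem sn_comm (a b : W) : sn b a = sn a b := by rw [sn, sn, norm_w2_comm, mul_comm]

theorem sn_self (a : W) : sn a a = 0 := by simp [sn, w2_self]

theorem sn_smul_left {c : ℂ} (hc : c ≠ 0) (a b : W) : sn (c • a) b = sn a b := by
  rw [sn, sn, w2_smul_left, norm_smul, norm_smul, mul_assoc,
    mul_div_mul_left _ _ (norm_ne_zero_iff.2 hc)]

theorem sn_smul_right {c : ℂ} (hc : c ≠ 0) (a b : W) : sn a (c • b) = sn a b := by
  rw [sn_comm, sn_smul_left hc, sn_comm]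

theorem sn_map (U : W →ₗᵢ[ℂ] W') (a b : W) : sn (U a) (U b) = sn a b := by
  rw [sn, sn, norm_w2_map, U.norm_map, U.norm_map]

theorem sn_tri (a c : W) {b : W} (hb : b ≠ 0) : sn a c ≤ sn a b + sn b c := by
  rcases eq_or_ne a 0 with rfl | ha
  · simpa [sn] using sn_nonneg b c
  rcases eq_or_ne c 0 with rfl | hc
  · simpa [sn] using sn_nonneg a b
  have ha' : 0 < ‖a‖ := norm_pos_iff.2 ha
  have hb' : 0 < ‖b‖ := norm_pos_iff.2 hb
  have hc' : 0 < ‖c‖ := norm_pos_iff.2 hc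
  have := w2_tri a b c
  rw [sn, sn, sn, div_add_div _ _ (by positivity) (by positivity), div_le_div_iff₀ (by positivity)
    (by positivity)]
  have h2 := mul_le_mul_of_nonneg_left this (by positivity : 0 ≤ ‖a‖ * ‖b‖ * ‖c‖)
  nlinarith

theorem sn_eq_zero_iff {a b : W} (ha : a ≠ 0) (hb : b ≠ 0) : sn a b = 0 ↔ ∃ c : ℂ, a = c • b := by
  rw [sn, div_eq_zero_iff, norm_eq_zero, w2_eq_zero_iff hb,
    or_iff_left (mul_ne_zero (norm_ne_zero_iff.2 ha) (norm_ne_zero_iff.2 hb))]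

theorem sn_le_sub (a b : W) : sn a b ≤ ‖a - b‖ / ‖a‖ := by
  rcases eq_or_ne b 0 with rfl | hb
  · simp only [sn, norm_zero, mul_zero, div_zero]; positivity
  rw [sn, ← mul_div_mul_right ‖a - b‖ _ (norm_ne_zero_iff.2 hb)]
  exact div_le_div_of_nonneg_right (norm_w2_le_sub a b) (by positivity)

/-! ### families of rank at most one -/

section fam

variable {ι κ μ : Type*} [Fintype ι] [Fintype κ] [Fintype μ]

/-- a finite family as a vector -/
def fn (a : ι → W) : PiLp 2 fun _ : ι => W := WithLp.toLp 2 a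

/-- all wedges of two families -/
def wf (a : ι → W) (b : κ → W) : PiLp 2 fun _ : ι × κ => T2 W :=
  WithLp.toLp 2 fun p => w2 (a p.1) (b p.2)

/-- all members are multiples of one vector -/
def R1 (a : ι → W) : Prop := ∃ Φ : W, ∀ i, ∃ c : ℂ, a i = c • Φ

/-- sine distance of two families of rank one -/
def snf (a : ι → W) (b : κ → W) : ℝ := ‖wf a b‖ / (‖fn a‖ * ‖fn b‖)

theorem norm_fn_sq (a : ι → W) : ‖fn a‖ ^ 2 = ∑ i, ‖a i‖ ^ 2 := PiLp.norm_sq_eq_of_L2 _ _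

theorem norm_wf_sq (a : ι → W) (b : κ → W) : ‖wf a b‖ ^ 2 = ∑ i, ∑ j, ‖w2 (a i) (b j)‖ ^ 2 := by
  rw [PiLp.norm_sq_eq_of_L2, Fintype.sum_prod_type]
  rfl

theorem fn_eq_zero {a : ι → W} : fn a = 0 ↔ a = 0 := by simp [fn]

theorem wf_eq_zero {a : ι → W} {b : κ → W} : wf a b = 0 ↔ ∀ i j, w2 (a i) (b j) = 0 := by
  simp [wf, funext_iff]

theorem norm_le_fn (a : ι → W) (i : ι) : ‖a i‖ ≤ ‖fn a‖ := PiLp.norm_apply_le (fn a) i

theorem norm_fn_smul (e : ι → ℂ) (Φ : W) : ‖fn fun i => e i • Φ‖ = ‖fn e‖ * ‖Φ‖ := by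
  refine (pow_left_inj₀ (norm_nonneg _) (by positivity) two_ne_zero).1 ?_
  rw [mul_pow, norm_fn_sq, norm_fn_sq, Finset.sum_mul]
  simp [norm_smul, mul_pow]

theorem norm_wf_smul (e : ι → ℂ) (f : κ → ℂ) (Φ Ψ : W) :
    ‖wf (fun i => e i • Φ) fun j => f j • Ψ‖ = ‖fn e‖ * ‖fn f‖ * ‖w2 Φ Ψ‖ := by
  refine (pow_left_inj₀ (norm_nonneg _) (by positivity) two_ne_zero).1 ?_
  rw [mul_pow, mul_pow, norm_wf_sq, norm_fn_sq, norm_fn_sq, Finset.sum_mul_sum, Finset.sum_mul]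
  refine Finset.sum_congr rfl fun i _ => ?_
  rw [Finset.sum_mul]
  refine Finset.sum_congr rfl fun j _ => ?_
  rw [w2_smul_left, w2_smul_right, norm_smul, norm_smul]
  ring

theorem snf_smul {e : ι → ℂ} {f : κ → ℂ} (he : e ≠ 0) (hf : f ≠ 0) (Φ Ψ : W) :
    snf (fun i => e i • Φ) (fun j => f j • Ψ) = sn Φ Ψ := by
  have h1 : ‖fn e‖ ≠ 0 := norm_ne_zero_iff.2 (mt fn_eq_zero.1 he)
  have h2 : ‖fn f‖ ≠ 0 := norm_ne_zero_iff.2 (mt fn_eq_zero.1 hf)
  rw [snf, sn, norm_wf_smul, norm_fn_smul, norm_fn_smul, mul_mul_mul_comm,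
    mul_div_mul_left _ _ (mul_ne_zero h1 h2)]

theorem norm_wf_le (a : ι → W) (b : κ → W) : ‖wf a b‖ ≤ ‖fn a‖ * ‖fn b‖ := by
  refine (pow_le_pow_iff_left₀ (norm_nonneg _) (by positivity) two_ne_zero).1 ?_
  rw [mul_pow, norm_wf_sq, norm_fn_sq, norm_fn_sq, Finset.sum_mul_sum]
  refine Finset.sum_le_sum fun i _ => Finset.sum_le_sum fun j _ => ?_
  rw [← mul_pow]
  exact pow_le_pow_left₀ (norm_nonneg _) (norm_w2_le _ _) 2

theorem norm_wf_comm (a : ι → W) (b : κ → W) : ‖wf b a‖ = ‖wf a b‖ := by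
  refine (pow_left_inj₀ (norm_nonneg _) (norm_nonneg _) two_ne_zero).1 ?_
  rw [norm_wf_sq, norm_wf_sq, Finset.sum_comm]
  simp only [norm_w2_comm (a _)]

theorem snf_nonneg (a : ι → W) (b : κ → W) : 0 ≤ snf a b := by unfold snf; positivity

theorem snf_le_one (a : ι → W) (b : κ → W) : snf a b ≤ 1 :=
  div_le_one_of_le₀ (norm_wf_le a b) (by positivity)

theorem snf_comm (a : ι → W) (b : κ → W) : snf b a = snf a b := by
  rw [snf, snf, norm_wf_comm, mul_comm]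

omit [Fintype ι] in
theorem R1.exists {a : ι → W} (h : R1 a) (ha : a ≠ 0) :
    ∃ (e : ι → ℂ) (Φ : W), e ≠ 0 ∧ Φ ≠ 0 ∧ a = fun i => e i • Φ := by
  obtain ⟨Φ, h⟩ := h
  choose e he using h
  refine ⟨e, Φ, ?_, ?_, funext he⟩ <;> rintro rfl <;> exact ha (funext fun i => by simp [he i])

omit [Fintype ι] in
theorem R1.of_ne {a : ι → W} (h : R1 a) {i : ι} (hi : a i ≠ 0) (j : ι) : ∃ c : ℂ, a j = c • a i := by
  obtain ⟨Φ, h⟩ := h
  obtain ⟨c, hc⟩ := h i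
  obtain ⟨d, hd⟩ := h j
  have : c ≠ 0 := fun h0 => hi (by rw [hc, h0, zero_smul])
  exact ⟨d * c⁻¹, by rw [hd, hc, smul_smul, inv_mul_cancel_right₀ this]⟩

omit [Fintype ι] in
theorem r1_iff {a : ι → W} : R1 a ↔ ∀ i j, w2 (a i) (a j) = 0 := by
  refine ⟨fun ⟨Φ, h⟩ i j => ?_, fun h => ?_⟩
  · obtain ⟨c, hc⟩ := h i
    obtain ⟨d, hd⟩ := h j
    rw [hc, hd, w2_smul_left, w2_smul_right, w2_self, smul_zero, smul_zero]
  · by_cases ha : ∀ i, a i = 0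
    · exact ⟨0, fun i => ⟨0, by simp [ha i]⟩⟩
    · obtain ⟨j, hj⟩ := not_forall.1 ha
      exact ⟨a j, fun i => exists_smul_of_w2 hj (h i j)⟩

/-- `snf` is the sine distance of any two non-zero members -/
theorem snf_eq_sn {a : ι → W} {b : κ → W} (ha : R1 a) (hb : R1 b) {i : ι} {j : κ} (hi : a i ≠ 0)
    (hj : b j ≠ 0) : snf a b = sn (a i) (b j) := by
  obtain ⟨e, Φ, he, -, rfl⟩ := ha.exists fun h => hi (by rw [h]; rfl)
  obtain ⟨f, Ψ, hf, -, rfl⟩ := hb.exists fun h => hj (by rw [h]; rfl)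
  rw [snf_smul he hf, sn_smul_left (left_ne_zero_of_smul hi),
    sn_smul_right (left_ne_zero_of_smul hj)]

theorem snf_zero_left (b : κ → W) : snf (0 : ι → W) b = 0 := by
  rw [snf, fn_eq_zero.2 rfl]; simp

theorem snf_zero_right (a : ι → W) : snf a (0 : κ → W) = 0 := by
  rw [snf_comm, snf_zero_left]

theorem snf_self {a : ι → W} (ha : R1 a) : snf a a = 0 := by
  rw [snf, wf_eq_zero.2 (r1_iff.1 ha)]; simp

theorem snf_tri {a : ι → W} {b : κ → W} {c : μ → W} (ha : R1 a) (hb : R1 b) (hc : R1 c)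
    (hb0 : b ≠ 0) : snf a c ≤ snf a b + snf b c := by
  rcases eq_or_ne a 0 with rfl | ha0
  · rw [snf_zero_left, snf_zero_left, zero_add]; exact snf_nonneg _ _
  rcases eq_or_ne c 0 with rfl | hc0
  · rw [snf_zero_right, snf_zero_right, add_zero]; exact snf_nonneg _ _
  obtain ⟨i, hi⟩ := Function.ne_iff.1 ha0
  obtain ⟨j, hj⟩ := Function.ne_iff.1 hb0
  obtain ⟨k, hk⟩ := Function.ne_iff.1 hc0
  rw [snf_eq_sn ha hc hi hk, snf_eq_sn ha hb hi hj, snf_eq_sn hb hc hj hk]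
  exact sn_tri _ _ hj

omit [Fintype ι] in
theorem R1.exists_gen {ι' : Type*} (U : W →ₗᵢ[ℂ] W') {a : ι → W} {a' : ι' → W'} (ha : R1 a)
    (ha0 : a' ≠ 0) (h1 : ∀ i, a' i ∈ Submodule.span ℂ (Set.range fun i => U (a i))) :
    ∃ i, a i ≠ 0 ∧ ∀ i', ∃ c : ℂ, a' i' = c • U (a i) := by
  obtain ⟨i, hi⟩ : ∃ i, a i ≠ 0 := by
    by_contra h
    push Not at h
    refine ha0 (funext fun i => ?_)
    have := h1 i
    simp only [h, map_zero] at this
    exact (Submodule.span_eq_bot.2 (by rintro _ ⟨_, rfl⟩; rfl)).le this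
  refine ⟨i, hi, fun i' => ?_⟩
  have h3 : Submodule.span ℂ (Set.range fun i => U (a i)) ≤ Submodule.span ℂ {U (a i)} := by
    refine Submodule.span_le.2 ?_
    rintro _ ⟨j, rfl⟩
    obtain ⟨c, hc⟩ := ha.of_ne hi j
    exact Submodule.mem_span_singleton.2 ⟨c, by simp [hc]⟩
  obtain ⟨c, hc⟩ := Submodule.mem_span_singleton.1 (h3 (h1 i'))
  exact ⟨c, hc.symm⟩

/-- change of chart and isometries: `a'`, `b'` span the images of the lines of `a`, `b` -/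
theorem snf_congr {ι' κ' : Type*} [Fintype ι'] [Fintype κ'] (U : W →ₗᵢ[ℂ] W') {a : ι → W}
    {b : κ → W} {a' : ι' → W'} {b' : κ' → W'} (ha : R1 a) (hb : R1 b) (ha0 : a' ≠ 0) (hb0 : b' ≠ 0)
    (h1 : ∀ i, a' i ∈ Submodule.span ℂ (Set.range fun i => U (a i)))
    (h2 : ∀ j, b' j ∈ Submodule.span ℂ (Set.range fun j => U (b j))) :
    R1 a' ∧ R1 b' ∧ snf a' b' = snf a b := by
  obtain ⟨i, hi, h3⟩ := ha.exists_gen U ha0 h1
  obtain ⟨j, hj, h4⟩ := hb.exists_gen U hb0 h2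
  have ha' : R1 a' := ⟨_, h3⟩
  have hb' : R1 b' := ⟨_, h4⟩
  obtain ⟨i', hi'⟩ := Function.ne_iff.1 ha0
  obtain ⟨j', hj'⟩ := Function.ne_iff.1 hb0
  refine ⟨ha', hb', ?_⟩
  rw [snf_eq_sn ha' hb' hi' hj', snf_eq_sn ha hb hi hj]
  obtain ⟨c, hc⟩ := h3 i'
  obtain ⟨d, hd⟩ := h4 j'
  rw [hc] at hi'
  rw [hd] at hj'
  rw [hc, hd, sn_smul_left (left_ne_zero_of_smul hi'), sn_smul_right (left_ne_zero_of_smul hj'),
    sn_map]

/-- (R) for families -/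
theorem norm_wf_le_sub {a b : ι → W} (hb : R1 b) : ‖wf a b‖ ≤ ‖fn (a - b)‖ * ‖fn b‖ := by
  have : wf a b = wf (a - b) b := by
    ext1 p
    change w2 (a p.1) (b p.2) = w2 (a p.1 - b p.1) (b p.2)
    rw [w2_sub_left, r1_iff.1 hb, sub_zero]
  rw [this]
  exact norm_wf_le _ _

end fam

end Crest.Agent.X261.Plk
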