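import Mathlib.Analysis.InnerProductSpace.TensorProduct
import Mathlib.Analysis.InnerProductSpace.GramMatrix
import Mathlib.Analysis.InnerProductSpace.PiL2
import Mathlib.Analysis.Normed.Module.Alternating.Basic
import Mathlib.Analysis.Normed.Module.Multilinear.Curry
import Mathlib.Analysis.Calculus.FDeriv.Analytic
import Mathlib.Analysis.Analytic.CPolynomial
import Mathlib.LinearAlgebra.Matrix.Determinant.Basic

/-!
# Row 261, package PLK (helper91), file `A` : Plücker vectors in inner product spaces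

* `Pw H r` : the `r`-th tensor power of an inner product space, `tp r` the product map,
  `wdg r` the normalised wedge : `⟪wdg v, wdg w⟫ = det ⟪v i, w j⟫`;
* `pmap U r` : the isometry induced by an isometry `U`;
* `wdg_ne_zero_iff`, `wdg_mul`, `exists_smul_of_span_le`, `span_le_of_smul` : the Plücker vector
  determines the span.
-/

set_option autoImplicit false
set_option linter.dupNamespace false

open scoped InnerProductSpace TensorProduct ComplexConjugate
open Finset

noncomputable section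

namespace Crest.Agent.X261.Plk

universe u

/-- bundled complex inner product spaces -/
structure IP : Type (u + 1) where
  T : Type u
  ng : NormedAddCommGroup T
  ip : @InnerProductSpace ℂ T _ ng.toSeminormedAddCommGroup

/-- bundled tensor powers -/
def pw (H : Type u) [NormedAddCommGroup H] [InnerProductSpace ℂ H] : ℕ → IP.{u}
  | 0 => ⟨EuclideanSpace ℂ PUnit.{u + 1}, inferInstance, inferInstance⟩
  | r + 1 =>
    letI := (pw H r).ng
    letI := (pw H r).ip
    ⟨H ⊗[ℂ] (pw H r).T, inferInstance, inferInstance⟩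

/-- the `r`-th tensor power of `H` -/
def Pw (H : Type u) [NormedAddCommGroup H] [InnerProductSpace ℂ H] (r : ℕ) : Type u := (pw H r).T

variable {H H' H'' : Type u} [NormedAddCommGroup H] [InnerProductSpace ℂ H]
  [NormedAddCommGroup H'] [InnerProductSpace ℂ H'] [NormedAddCommGroup H''] [InnerProductSpace ℂ H'']

instance (r : ℕ) : NormedAddCommGroup (Pw H r) := (pw H r).ng
instance (r : ℕ) : InnerProductSpace ℂ (Pw H r) := (pw H r).ip

/-- `Pw H 0` is the line -/
def e0 (H : Type u) [NormedAddCommGroup H] [InnerProductSpace ℂ H] :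
    EuclideanSpace ℂ PUnit.{u + 1} ≃ₗᵢ[ℂ] Pw H 0 := LinearIsometryEquiv.refl ℂ _

/-- `Pw H (r + 1) = H ⊗ Pw H r` -/
def eS (H : Type u) [NormedAddCommGroup H] [InnerProductSpace ℂ H] (r : ℕ) :
    H ⊗[ℂ] Pw H r ≃ₗᵢ[ℂ] Pw H (r + 1) := LinearIsometryEquiv.refl ℂ _

/-- `x ↦ x ⊗ f` -/
def tL {F : Type u} [NormedAddCommGroup F] [InnerProductSpace ℂ F] {r : ℕ}
    (f : ContinuousMultilinearMap ℂ (fun _ : Fin r => H) F) :
    H →L[ℂ] ContinuousMultilinearMap ℂ (fun _ : Fin r => H) (H ⊗[ℂ] F) :=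
  LinearMap.mkContinuous
    { toFun := fun x => (TensorProduct.mkL ℂ H F x).compContinuousMultilinearMap f
      map_add' := fun x y => by ext v; simp
      map_smul' := fun c x => by ext v; simp [TensorProduct.smul_tmul'] } ‖f‖ fun x => by
    refine ContinuousMultilinearMap.opNorm_le_bound (by positivity) fun v => ?_
    have := f.le_opNorm v
    change ‖x ⊗ₜ[ℂ] f v‖ ≤ _
    rw [TensorProduct.norm_tmul]
    calc ‖x‖ * ‖f v‖ ≤ ‖x‖ * (‖f‖ * ∏ i, ‖v i‖) := by gcongr
      _ = _ := by ring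

/-- the tensor product of `r` vectors -/
def tp (H : Type u) [NormedAddCommGroup H] [InnerProductSpace ℂ H] :
    (r : ℕ) → ContinuousMultilinearMap ℂ (fun _ : Fin r => H) (Pw H r)
  | 0 => ContinuousMultilinearMap.constOfIsEmpty ℂ _ (e0 H (EuclideanSpace.single PUnit.unit 1))
  | r + 1 =>
    (eS H r).toContinuousLinearEquiv.toContinuousLinearMap.compContinuousMultilinearMap
      (ContinuousLinearMap.uncurryLeft (Ei := fun _ : Fin (r + 1) => H) (tL (tp H r)))

theorem tp_zero (v : Fin 0 → H) : tp H 0 v = e0 H (EuclideanSpace.single PUnit.unit 1) := rfl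

theorem tp_succ (r : ℕ) (v : Fin (r + 1) → H) :
    tp H (r + 1) v = eS H r (v 0 ⊗ₜ[ℂ] tp H r (Fin.tail v)) := rfl

theorem inner_tp : ∀ (r : ℕ) (v w : Fin r → H), ⟪tp H r v, tp H r w⟫_ℂ = ∏ i, ⟪v i, w i⟫_ℂ
  | 0, v, w => by
    rw [tp_zero, tp_zero, LinearIsometryEquiv.inner_map_map]; simp
  | r + 1, v, w => by
    rw [tp_succ, tp_succ, LinearIsometryEquiv.inner_map_map, TensorProduct.inner_tmul,
      inner_tp r, Fin.prod_univ_succ]
    rfl

/-- the isometry of tensor powers induced by an isometry -/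
def pmap (U : H →ₗᵢ[ℂ] H') : (r : ℕ) → Pw H r →ₗᵢ[ℂ] Pw H' r
  | 0 => (e0 H').toLinearIsometry.comp (e0 H).symm.toLinearIsometry
  | r + 1 => (eS H' r).toLinearIsometry.comp
      ((TensorProduct.mapIsometry U (pmap U r)).comp (eS H r).symm.toLinearIsometry)

theorem pmap_tp (U : H →ₗᵢ[ℂ] H') : ∀ (r : ℕ) (v : Fin r → H),
    pmap U r (tp H r v) = tp H' r fun i => U (v i)
  | 0, _ => rfl
  | r + 1, v => by
    rw [tp_succ, tp_succ]
    simp only [pmap, LinearIsometry.coe_comp, Function.comp_apply,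
      LinearIsometryEquiv.coe_toLinearIsometry, LinearIsometryEquiv.symm_apply_apply,
      TensorProduct.mapIsometry_apply, TensorProduct.map_tmul, LinearIsometry.coe_toLinearMap]
    rw [pmap_tp U r]
    rfl

/-- the normalised wedge product of `r` vectors -/
def wdg (H : Type u) [NormedAddCommGroup H] [InnerProductSpace ℂ H] (r : ℕ) :
    H [⋀^Fin r]→L[ℂ] Pw H r :=
  (((√(r.factorial : ℝ))⁻¹ : ℝ) : ℂ) • ContinuousMultilinearMap.alternatization (tp H r)

variable {r : ℕ}

theorem wdg_apply (v : Fin r → H) : wdg H r v = (((√(r.factorial : ℝ))⁻¹ : ℝ) : ℂ) •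
    ∑ σ : Equiv.Perm (Fin r), ((Equiv.Perm.sign σ : ℤ) : ℂ) • tp H r fun i => v (σ i) := by
  rw [wdg, ContinuousAlternatingMap.smul_apply, ContinuousMultilinearMap.alternatization_apply_apply]
  congr 1
  refine Finset.sum_congr rfl fun σ _ => ?_
  rw [Units.smul_def, Int.cast_smul_eq_zsmul]
  rfl

theorem inner_wdg (v w : Fin r → H) :
    ⟪wdg H r v, wdg H r w⟫_ℂ = (Matrix.of fun i j => ⟪v i, w j⟫_ℂ).det := by
  set M : Matrix (Fin r) (Fin r) ℂ := Matrix.of fun i j => ⟪v i, w j⟫_ℂ with hM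
  have h1 : ∀ τ : Equiv.Perm (Fin r),
      ⟪∑ σ : Equiv.Perm (Fin r), ((Equiv.Perm.sign σ : ℤ) : ℂ) • tp H r fun i => v (σ i),
        ((Equiv.Perm.sign τ : ℤ) : ℂ) • tp H r fun i => w (τ i)⟫_ℂ = M.det := by
    intro τ
    have h2 := Matrix.det_permute' τ M
    rw [Matrix.det_apply] at h2
    rw [inner_smul_right, sum_inner]
    have h3 : ∑ σ : Equiv.Perm (Fin r), ⟪((Equiv.Perm.sign σ : ℤ) : ℂ) • tp H r fun i => v (σ i),
        tp H r fun i => w (τ i)⟫_ℂ = ((Equiv.Perm.sign τ : ℤ) : ℂ) * M.det := by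
      rw [← h2]
      refine Finset.sum_congr rfl fun σ _ => ?_
      rw [inner_smul_left, inner_tp, Units.smul_def, zsmul_eq_mul, map_intCast]
      rfl
    rw [h3, ← mul_assoc, ← Int.cast_mul, Int.units_coe_mul_self]
    simp
  have hf : (0 : ℝ) < r.factorial := by exact_mod_cast r.factorial_pos
  rw [wdg_apply, wdg_apply, inner_smul_left, inner_smul_right, inner_sum]
  simp only [h1, Finset.sum_const, Finset.card_univ, Fintype.card_perm, Fintype.card_fin,
    nsmul_eq_mul, Complex.conj_ofReal]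
  rw [← mul_assoc, ← mul_assoc, ← Complex.ofReal_mul, ← mul_inv, Real.mul_self_sqrt hf.le]
  have : ((r.factorial : ℝ) : ℂ) ≠ 0 := by exact_mod_cast hf.ne'
  push_cast
  rw [inv_mul_cancel₀ (by exact_mod_cast this), one_mul]

theorem inner_wdg_self (v : Fin r → H) : ⟪wdg H r v, wdg H r v⟫_ℂ = (Matrix.gram ℂ v).det :=
  inner_wdg v v

theorem pmap_wdg (U : H →ₗᵢ[ℂ] H') (v : Fin r → H) :
    pmap U r (wdg H r v) = wdg H' r fun i => U (v i) := by
  simp only [wdg_apply, map_smul, map_sum, pmap_tp]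

theorem wdg_ne_zero_iff {v : Fin r → H} : wdg H r v ≠ 0 ↔ LinearIndependent ℂ v := by
  rw [← Matrix.det_gram_ne_zero_iff_linearIndependent, ← inner_wdg_self, Ne, Ne, inner_self_eq_zero]

theorem wdg_eq_zero_iff {v : Fin r → H} : wdg H r v = 0 ↔ ¬ LinearIndependent ℂ v := by
  rw [← wdg_ne_zero_iff, not_not]

/-- change of frame -/
theorem wdg_mul (A : Matrix (Fin r) (Fin r) ℂ) (v : Fin r → H) :
    wdg H r (fun i => ∑ j, A i j • v j) = A.det • wdg H r v := by
  have h : ∀ z : Fin r → H,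
      ⟪wdg H r z, wdg H r (fun i => ∑ j, A i j • v j) - A.det • wdg H r v⟫_ℂ = 0 := by
    intro z
    rw [inner_sub_right, inner_smul_right, inner_wdg, inner_wdg, ← Matrix.det_transpose A,
      mul_comm, ← Matrix.det_mul, sub_eq_zero]
    congr 1
    ext i j
    simp [Matrix.mul_apply, inner_sum, inner_smul_right, mul_comm]
  rw [← sub_eq_zero, ← inner_self_eq_zero (𝕜 := ℂ)]
  conv_lhs => rw [inner_sub_left, inner_smul_left, h, h]
  simp

theorem wdg_smul (c : ℂ) (v : Fin r → H) : wdg H r (fun i => c • v i) = c ^ r • wdg H r v := by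
  simpa using (wdg H r).toContinuousMultilinearMap.map_smul_univ (fun _ => c) v

theorem exists_smul_of_span_le {v w : Fin r → H}
    (h : ∀ i, w i ∈ Submodule.span ℂ (Set.range v)) : ∃ c : ℂ, wdg H r w = c • wdg H r v := by
  choose A hA using fun i => (Submodule.mem_span_range_iff_exists_fun ℂ).1 (h i)
  refine ⟨(Matrix.of A).det, ?_⟩
  rw [← wdg_mul]
  congr 1
  funext i
  exact (hA i).symm

theorem inner_wdg_cons (z : Fin (r + 1) → H) (x : H) (v : Fin r → H) :
    ⟪wdg H (r + 1) z, wdg H (r + 1) (Fin.cons x v)⟫_ℂ =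
      ∑ j : Fin (r + 1),
        (-1) ^ (j : ℕ) * ⟪z j, x⟫_ℂ * ⟪wdg H r fun i => z (j.succAbove i), wdg H r v⟫_ℂ := by
  rw [inner_wdg, Matrix.det_succ_column_zero]
  refine Finset.sum_congr rfl fun j _ => ?_
  rw [inner_wdg]
  rfl

/-- the wedge with a vector only depends on the Plücker vector -/
theorem wdg_cons_smul {v w : Fin r → H} {c : ℂ} (h : wdg H r w = c • wdg H r v) (x : H) :
    wdg H (r + 1) (Fin.cons x w) = c • wdg H (r + 1) (Fin.cons x v) := by
  have h1 : ∀ z : Fin (r + 1) → H, ⟪wdg H (r + 1) z,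
      wdg H (r + 1) (Fin.cons x w) - c • wdg H (r + 1) (Fin.cons x v)⟫_ℂ = 0 := by
    intro z
    rw [inner_sub_right, inner_smul_right, inner_wdg_cons, inner_wdg_cons, Finset.mul_sum,
      sub_eq_zero]
    refine Finset.sum_congr rfl fun j _ => ?_
    rw [h, inner_smul_right]
    ring
  rw [← sub_eq_zero, ← inner_self_eq_zero (𝕜 := ℂ)]
  conv_lhs => rw [inner_sub_left, inner_smul_left, h1, h1]
  simp

theorem mem_span_iff {v : Fin r → H} (hv : wdg H r v ≠ 0) (x : H) :
    x ∈ Submodule.span ℂ (Set.range v) ↔ wdg H (r + 1) (Fin.cons x v) = 0 := by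
  rw [wdg_eq_zero_iff, linearIndependent_finCons]
  simp [wdg_ne_zero_iff.1 hv]

/-- proportional non-zero Plücker vectors have the same span -/
theorem span_eq_of_smul {v w : Fin r → H} {c : ℂ} (hw : wdg H r w ≠ 0)
    (h : wdg H r w = c • wdg H r v) :
    Submodule.span ℂ (Set.range w) = Submodule.span ℂ (Set.range v) := by
  have hc : c ≠ 0 := fun h0 => hw (by rw [h, h0, zero_smul])
  have hv : wdg H r v ≠ 0 := fun h0 => hw (by rw [h, h0, smul_zero])
  ext x
  rw [mem_span_iff hw, mem_span_iff hv, wdg_cons_smul h, smul_eq_zero, or_iff_right hc]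

theorem norm_tp (v : Fin r → H) : ‖tp H r v‖ = ∏ i, ‖v i‖ := by
  have h := inner_tp r v v
  simp only [inner_self_eq_norm_sq_to_K, Finset.prod_pow] at h
  have h2 : ‖tp H r v‖ ^ 2 = (∏ i, ‖v i‖) ^ 2 := by
    have : ((‖tp H r v‖ ^ 2 : ℝ) : ℂ) = (((∏ i, ‖v i‖) ^ 2 : ℝ) : ℂ) := by
      push_cast
      exact h
    exact_mod_cast this
  exact (pow_left_inj₀ (norm_nonneg _) (Finset.prod_nonneg fun _ _ => norm_nonneg _)
    two_ne_zero).1 h2

section hol

variable {E : Type*} [NormedAddCommGroup E] [NormedSpace ℂ E]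

theorem differentiable_tp : Differentiable ℂ (tp H r) := fun v =>
  ((tp H r).hasFDerivAt v).differentiableAt

theorem differentiable_wdg : Differentiable ℂ (wdg H r) := fun v =>
  ((wdg H r).toContinuousMultilinearMap.hasFDerivAt v).differentiableAt

theorem DifferentiableAt.wdg {f : Fin r → E → H} {x : E} (hf : ∀ i, DifferentiableAt ℂ (f i) x) :
    DifferentiableAt ℂ (fun y => wdg H r fun i => f i y) x :=
  (differentiable_wdg _).comp x (differentiableAt_pi.2 hf)

theorem DifferentiableOn.wdg {f : Fin r → E → H} {s : Set E}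
    (hf : ∀ i, DifferentiableOn ℂ (f i) s) :
    DifferentiableOn ℂ (fun y => wdg H r fun i => f i y) s :=
  differentiable_wdg.comp_differentiableOn (differentiableOn_pi.2 hf)

theorem DifferentiableAt.tp {f : Fin r → E → H} {x : E} (hf : ∀ i, DifferentiableAt ℂ (f i) x) :
    DifferentiableAt ℂ (fun y => tp H r fun i => f i y) x :=
  (differentiable_tp _).comp x (differentiableAt_pi.2 hf)

end hol

end Crest.Agent.X261.Plk
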