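import Crest.Agent.X261.Plk.Wm
import Crest.Agent.X261.Gauss.GS
import Crest.Agent.X261.Gauss.Dsc
import Crest.Agent.X261.Gauss.Par
import Crest.Agent.X261.Rn93.Pol
import Crest.Agent.X261.Grp.IGb

/-!
# Row 261, GAUSS-LIN (helper91), file `Gm`: the second two-point system and the assembly

* `nr_bdd`, `gm2`, `not_tr1`, `not_tr2`;
* `ParS` : the output of the first run; `gauss_of : RelnBStmt → GaussStmt`.
-/

set_option autoImplicit false
set_option linter.unusedSectionVars false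

open Set Filter Topology MeasureTheory Module

namespace Crest.Agent.X261.Plk.Gm

open Crest.Agent.R273.Fock_243 Crest.Agent.R275.Geo Crest.Agent.R275.Core144
open Crest.Agent.R273.UCov_914 Crest.Agent.R273.Defs_333
open Crest.Agent.R189 (Amen)
open Crest.Agent.X261.Gauss (Frm dV GM pl Lg Lg_le span_of_pl pl_ne_zero span_eq_of_snf)
open Crest.Agent.X261.Top (dW Fol Pol)
open Crest.Agent.X261.Eqv (AE)
open Crest.Agent.X261.Ans (HA)

noncomputable section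

variable {n q r : ℕ} {X : Type} [TopologicalSpace X] {A : Atl n X} {G : Type} [Group G]
  {D : MonD A G} {H : Type} [NormedAddCommGroup H] [InnerProductSpace ℂ H]

/-- the invariant norm is bounded -/
theorem nr_bdd [CompactSpace X] [T2Space X] [Finite A.ι] {κ : Type} [Fintype κ] {W : Type}
    [NormedAddCommGroup W] [InnerProductSpace ℂ W] (Γ : GM D κ W) : ∃ C, ∀ y, Γ.nr y ≤ C := by
  obtain ⟨K, hK, hc⟩ := D.exists_fund
  obtain ⟨C, hC⟩ : ∃ C, ∀ y ∈ K, Γ.nr y ≤ C := by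
    refine hK.induction_on (p := fun s => ∃ C, ∀ y ∈ s, Γ.nr y ≤ C) ⟨0, fun _ h => h.elim⟩
      (fun s t hst ⟨C, hC⟩ => ⟨C, fun y hy => hC y (hst hy)⟩)
      (fun s t ⟨C, hC⟩ ⟨C', hC'⟩ => ⟨max C C', fun y hy => hy.elim
        (fun h => (hC y h).trans (le_max_left _ _)) fun h => (hC' y h).trans (le_max_right _ _)⟩)
      fun y _ => ?_
    obtain ⟨i, hi⟩ := A.cover (D.pr y)
    obtain ⟨C, hC⟩ := Γ.wt_bdd i _ hi
    have h1 : ContinuousAt (fun x => ‖fn (Γ.b i (D.co i y) x)‖) (D.pr y) :=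
      (Fr.cont_of_an (f := fun x => fn (Γ.b i (D.co i y) x)) hi
        ((Γ.hol_fn i _).continuousOn.continuousAt
          ((A.e i).open_target.mem_nhds ((A.e i).map_source hi)))).norm
    refine ⟨_, mem_nhdsWithin_of_mem_nhds ((D.co_eventually hi).and
      (D.continuous_pr.continuousAt.eventually
        (hC.and (h1.eventually (gt_mem_nhds (lt_add_one _)))))),
      (‖fn (Γ.b i (D.co i y) (D.pr y))‖ + 1) ^ 2 * Real.exp C, fun x hx => ?_⟩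
    rw [← D.pt_co hx.1.1, Γ.nr_pt hx.1.1, hx.1.2]
    exact mul_le_mul (pow_le_pow_left₀ (norm_nonneg _) hx.2.2.le 2)
      (Real.exp_le_exp.2 ((neg_le_abs _).trans hx.2.1)) (Real.exp_pos _).le (sq_nonneg _)
  refine ⟨C, fun y => ?_⟩
  obtain ⟨g, hg⟩ := hc y
  rw [← Γ.nr_deck g y]
  exact hC _ hg

theorem norm_fn_unit {W : Type*} [NormedAddCommGroup W] [InnerProductSpace ℂ W] (a : W) :
    ‖fn fun _ : Unit => a‖ ^ 2 = ‖a‖ ^ 2 := by
  rw [norm_fn_sq]; simp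

/-- a unimodular multiple of an isometry -/
def smulI {W : Type*} [NormedAddCommGroup W] [InnerProductSpace ℂ W] (c : ℂ) (hc : ‖c‖ = 1)
    (U : W →ₗᵢ[ℂ] W) : W →ₗᵢ[ℂ] W where
  toLinearMap := c • U.toLinearMap
  norm_map' x := by simp [norm_smul, hc]

/-- the second family of lines -/
def gm2 {W : Type} [NormedAddCommGroup W] [InnerProductSpace ℂ W] {L : LB A} (h : HM L)
    (Ψ : A.ι → G → X → W)
    (h1 : ∀ i v, DifferentiableOn ℂ (fun z => Ψ i v ((A.e i).symm z)) (A.e i).target)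
    (h2 : ∀ i j v, ∀ x ∈ (A.e i).source ∩ (A.e j).source,
      Ψ i v x = L.g i j x • Ψ j (D.c i j x * v) x)
    (h3 : ∀ g : G, ∃ U : W →ₗᵢ[ℂ] W, ∀ i v, ∀ x ∈ (A.e i).source, Ψ i (v * g⁻¹) x = U (Ψ i v x))
    (h4 : ∃ i v, ∃ x ∈ (A.e i).source, Ψ i v x ≠ 0) (c : ℂ) (hc : c ≠ 0) : GM D Unit W where
  b i v x _ := c • Ψ i v x
  hol i v _ := (h1 i v).const_smul c
  r1 i v x _ := ⟨Ψ i v x, fun _ => ⟨c, rfl⟩⟩
  tr i j v x hx _ := by
    rw [h2 i j v x hx, smul_comm]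
    exact Submodule.smul_mem _ _ (Submodule.subset_span ⟨(), rfl⟩)
  eqv g := by
    obtain ⟨U, hU⟩ := h3 g
    exact ⟨U, fun i v x hx _ => by rw [hU i v x hx, map_smul]⟩
  ne := by
    obtain ⟨i, v, x, hx, h0⟩ := h4
    exact ⟨i, v, x, hx, fun h5 => smul_ne_zero hc h0 (congrFun h5 ())⟩
  wt i x := -Real.log (h.w i x)
  wt_bdd i x hx := by
    have h5 : ContinuousAt (fun x => |-Real.log (h.w i x)|) x :=
      ((Fr.cont_of_an hx ((h.sm i).continuousOn.continuousAt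
        ((A.e i).open_target.mem_nhds ((A.e i).map_source hx)))).log (h.pos i x hx).ne').neg.abs
    exact ⟨_, (h5.eventually (gt_mem_nhds (lt_add_one _))).mono fun _ hy => hy.le⟩
  wt_tr i j v x hx := by
    rw [norm_fn_unit, norm_fn_unit, neg_neg, neg_neg, Real.exp_log (h.pos i x hx.1),
      Real.exp_log (h.pos j x hx.2), h.tr i j x hx, h2 i j v x hx]
    simp only [norm_smul]
    ring

variable (Φ : Frm D q H)

/-- the set of good points contains a nonempty open set -/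
theorem exists_good [PreconnectedSpace (D.cov G)] (hr : Φ.Rk r) :
    ∃ i v, ∃ x ∈ (A.e i).source, ∀ᶠ y in 𝓝 x, y ∈ (A.e i).source ∧ dW A i (Φ.a i v) y ≠ 0 ∧
      finrank ℂ (Submodule.span ℂ (range (Φ.S i v y))) = r := by
  obtain ⟨i, v, x, hx, h⟩ := hr.eq
  obtain ⟨I, hI⟩ := Function.ne_iff.1 (pl_ne_zero h)
  have hc : ∀ y ∈ (A.e i).source, ContinuousAt (fun y => pl r (Φ.S i v y) I) y := fun y hy =>
    Fr.cont_of_an (f := fun y => pl r (Φ.S i v y) I) hy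
      ((wc H r).cont.continuousAt.comp (continuousAt_pi.2 fun k =>
        (Fr.diff_S Φ i v (I k) ((A.e i).map_source hy)).continuousAt))
  obtain ⟨y, h1, h2, h3⟩ := ((Filter.not_eventually.1 (Fr.tau_nf Φ i v hx)).and_eventually
    (((hc x hx).eventually_ne hI).and ((A.e i).open_source.mem_nhds hx))).exists
  refine ⟨i, v, y, h3, ?_⟩
  filter_upwards [(A.e i).open_source.mem_nhds h3, (hc y h3).eventually_ne h2,
    (Fr.cont_of_an (f := dW A i (Φ.a i v)) h3 (continuousAt_pi.2 fun I =>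
      (Fr.an_dW Φ i v I ((A.e i).map_source h3)).continuousAt)).eventually_ne h1] with w h4 h5 h6
  exact ⟨h4, h6, (span_of_pl (hr.le i v w h4) h5).2⟩

variable [CompactSpace X] [T2Space X] [Finite A.ι] [ConnectedSpace (D.cov G)]

theorem not_tr1 (hG : Grp.JN G) (hA : Amen G) {K : Subgroup G} (hK : K.FG) (hv : ¬ Grp.VInd K)
    (hF : Φ.NoFix K) (hr : Φ.Rk r) (Γ : GM D (Fin r → FI n) (Pc H r))
    (hb : ∀ i v x, Γ.b i v x = pl r (Φ.S i v x)) : ¬ Rn.Tr Γ.tp := by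
  intro h
  obtain ⟨N, h1, h2, h3⟩ := Γ.of_tr h
  obtain ⟨y, -, h4, h5⟩ := h3.exists_mem (x := Classical.arbitrary _) univ_mem
  obtain ⟨i, hi⟩ := A.cover (D.pr y)
  rw [← D.pt_co hi] at h4 h5
  have key : ∀ v, Γ.bb (D.pt i v (D.pr y)) ≠ 0 →
      finrank ℂ (Submodule.span ℂ (range (Φ.S i v (D.pr y)))) = r := fun v h6 => by
    have h7 := mt (Γ.bb_eq_zero hi).2 h6
    rw [hb] at h7
    obtain ⟨I, hI⟩ := Function.ne_iff.1 h7
    exact (span_of_pl (hr.le i v _ hi) hI).2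
  have h6 := Φ.triv hG hA hK hv hF h1 h2 (v := D.co i y) hi fun g hg I => by
    have h7 := h5 g hg
    have h8 := Γ.bb_deck_ne g h4
    rw [D.deck_pt] at h7 h8
    rw [Γ.snf_pt hi hi, hb, hb] at h7
    rw [span_eq_of_snf (key _ h4) (key _ h8) h7]
    exact Submodule.subset_span ⟨I, rfl⟩
  have h7 := key _ h4
  rw [h6, Pi.zero_def, range_const, Submodule.span_zero_singleton, finrank_bot] at h7
  have := hr.pos
  omega

theorem not_tr2 (hG : Grp.JN G) (hA : Amen G) {K : Subgroup G} (hK : K.FG) (hv : ¬ Grp.VInd K)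
    (hF : Φ.NoFix K) (hr : Φ.Rk r) {e : A.ι → X → FI n → ℂ} {Ψ : A.ι → G → X → Pc H r}
    (h3 : ∀ g : G, ∃ c : ℂ, ‖c‖ = 1 ∧ ∀ i v, ∀ x ∈ (A.e i).source,
      Ψ i (v * g⁻¹) x = c • pmc (Φ.ρ g).toLinearIsometry r (Ψ i v x))
    (h4 : ∀ i v, ∀ x ∈ (A.e i).source, dW A i (Φ.a i v) x ≠ 0 → ∀ I,
      Sp (wc H r).toAlternatingMap (dV A i (Φ.a i v) x) (Φ.S i v x) I = e i x I • Ψ i v x)
    (Γ : GM D Unit (Pc H r)) {c : ℂ} (hb : ∀ i v x, Γ.b i v x = fun _ => c • Ψ i v x) :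
    ¬ Rn.Tr Γ.tp := by
  intro h
  obtain ⟨N, hN1, hN2, hN3⟩ := Γ.of_tr h
  obtain ⟨i, v, x₀, hx₀, hg⟩ := exists_good Φ hr
  obtain ⟨y, ⟨⟨hi, hv'⟩, -, hτ, hrk⟩, h5, h6⟩ := hN3.exists_mem (x := D.pt i v x₀)
    ((D.co_eventually (i := i) (e := D.pt i v x₀) hx₀).and
      (D.continuous_pr.continuousAt.eventually (p := fun y => y ∈ (A.e i).source ∧
        dW A i (Φ.a i v) y ≠ 0 ∧ finrank ℂ (Submodule.span ℂ (range (Φ.S i v y))) = r) hg))
  rw [D.co_pt v hx₀] at hv'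
  rw [← D.pt_co hi, hv'] at h5 h6
  set x := D.pr y
  obtain ⟨β, hβ, hs⟩ := exists_basis hrk
  obtain ⟨a, ha, h7⟩ := (Fr.hor Φ i v hi).rank_one (wc H r).toAlternatingMap hτ hβ hs
  obtain ⟨I, hI⟩ := Function.ne_iff.1 ha
  have hβ0 : wc H r β ≠ 0 := wc_ne_zero_iff.2 hβ
  have h8 : wc H r β = ((a I)⁻¹ * e i x I) • Ψ i v x := by
    rw [mul_smul, ← h4 i v x hi hτ I, h7, smul_smul, inv_mul_cancel₀ hI, one_smul]
    rfl
  have h9 := Φ.triv hG hA hK hv hF hN1 hN2 (v := v) hi fun g hg J => by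
    have h10 := h6 g hg
    have h11 := Γ.bb_deck_ne g h5
    rw [D.deck_pt] at h10 h11
    rw [Γ.snf_pt hi hi, snf_comm] at h10
    have h12 : Γ.b i v x () ≠ 0 := fun h0 => h5 ((Γ.bb_eq_zero hi).2 (funext fun _ => h0))
    have h13 : Γ.b i (v * g⁻¹) x () ≠ 0 := fun h0 =>
      h11 ((Γ.bb_eq_zero hi).2 (funext fun _ => h0))
    rw [snf_eq_sn (Γ.r1 _ _ _ hi) (Γ.r1 _ _ _ hi) h13 h12, sn_eq_zero_iff h13 h12] at h10
    obtain ⟨d, hd⟩ := h10
    obtain ⟨c', hc', h14⟩ := h3 g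
    have hc : c ≠ 0 := fun h0 => h12 (by rw [hb, h0, zero_smul])
    have hc0 : c' ≠ 0 := norm_ne_zero_iff.1 (hc' ▸ one_ne_zero)
    simp only [hb, h14 i v x hi] at hd
    rw [smul_comm d c] at hd
    have h15 : pmc (Φ.ρ g).toLinearIsometry r (Ψ i v x) = (c'⁻¹ * d) • Ψ i v x := by
      rw [mul_smul, ← smul_right_injective _ hc hd, smul_smul, inv_mul_cancel₀ hc0, one_smul]
    have h16 : wc H r (fun k => Φ.ρ g (β k)) = (c'⁻¹ * d) • wc H r β := by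
      have h17 := pmc_wc (Φ.ρ g).toLinearIsometry β
      rw [h8, map_smul, h15, smul_comm, ← h8] at h17
      exact h17.symm
    have h18 : wc H r (fun k => Φ.ρ g (β k)) ≠ 0 := by
      rw [show wc H r (fun k => Φ.ρ g (β k)) = _ from (pmc_wc (Φ.ρ g).toLinearIsometry β).symm]
      exact fun h0 => hβ0 ((pmc _ r).injective (h0.trans (map_zero _).symm))
    have h19 := span_eq_of_wc h18 h16
    rw [Φ.S_eqv g i v x hi, ← hs, ← h19]
    have h20 : Φ.S i v x J ∈ Submodule.span ℂ (range β) := hs ▸ mem_span_self _ J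
    have h21 := Submodule.mem_map_of_mem (f := (Φ.ρ g).toLinearEquiv.toLinearMap) h20
    rwa [Submodule.map_span, ← range_comp] at h21
  rw [h9, Pi.zero_def, range_const, Submodule.span_zero_singleton, finrank_bot] at hrk
  have := hr.pos
  omega

/-- the second run -/
theorem exists_tp (hG : Grp.JN G) (hA : Amen G) {K : Subgroup G} (hK : K.FG) (hv : ¬ Grp.VInd K)
    (hF : Φ.NoFix K) (hr : Φ.Rk r) {p : ℕ} (F : Fol D p) (h : HM F.L)
    (hp : ∃ i v, ∃ O : Set X, IsOpen O ∧ O.Nonempty ∧ O ⊆ (A.e i).source ∧ ∀ x ∈ O,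
      ∃ Ψ : Pc H r, ∀ I, Sp (wc H r).toAlternatingMap (dV A i (Φ.a i v) x) (Φ.S i v x) I
        = F.e i x I • Ψ) :
    ∃ T : Eqv.TP volume (HA.of (D.atl G)) G, T.wt = Rn.wtD D h ∧ (∀ x, T.φ x ≤ 0) ∧ ¬ Rn.Tr T := by
  obtain ⟨Ψ, h1, h2, h3, h4⟩ := psi_main Φ F hp
  have h3' : ∀ g : G, ∃ U : Pc H r →ₗᵢ[ℂ] Pc H r, ∀ i v, ∀ x ∈ (A.e i).source,
      Ψ i (v * g⁻¹) x = U (Ψ i v x) := fun g => by
    obtain ⟨c, hc, h5⟩ := h3 g
    exact ⟨smulI c hc _, h5⟩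
  have h5 : ∃ i v, ∃ x ∈ (A.e i).source, Ψ i v x ≠ 0 := by
    obtain ⟨i, v, x, hx, hg⟩ := exists_good Φ hr
    obtain ⟨-, hτ, hrk⟩ := hg.self_of_nhds
    obtain ⟨β, hβ, hs⟩ := exists_basis hrk
    obtain ⟨a, ha, h7⟩ := (Fr.hor Φ i v hx).rank_one (wc H r).toAlternatingMap hτ hβ hs
    obtain ⟨I, hI⟩ := Function.ne_iff.1 ha
    refine ⟨i, v, x, hx, fun h0 => smul_ne_zero hI (wc_ne_zero_iff.2 hβ) ?_⟩
    have h8 := h4 i v x hx hτ I
    rwa [h7, h0, smul_zero] at h8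
  obtain ⟨C, hC⟩ := nr_bdd (gm2 h Ψ h1 h2 h3' h5 1 one_ne_zero)
  have hC0 : 0 ≤ C := (GM.nr_nonneg _ (Classical.arbitrary _)).trans (hC _)
  have hc : (((C + 1)⁻¹ : ℝ) : ℂ) ≠ 0 := Complex.ofReal_ne_zero.2 (by positivity)
  refine ⟨(gm2 h Ψ h1 h2 h3' h5 _ hc).tp, rfl, fun y => ?_,
    not_tr2 Φ hG hA hK hv hF hr h3 h4 _ fun _ _ _ => rfl⟩
  change Lg _ ≤ ((0 : ℝ) : EReal)
  rw [Lg_le, Real.exp_zero]
  have h6 : (gm2 h Ψ h1 h2 h3' h5 _ hc).nr y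
      = (C + 1)⁻¹ ^ 2 * (gm2 h Ψ h1 h2 h3' h5 1 one_ne_zero).nr y := by
    simp only [GM.nr, GM.bb, gm2]
    rw [norm_fn_unit, norm_fn_unit]
    simp only [norm_smul, norm_one, one_mul, Complex.norm_real, Real.norm_eq_abs, mul_pow,
      sq_abs, mul_assoc]
  rw [h6]
  calc (C + 1)⁻¹ ^ 2 * _ ≤ (C + 1)⁻¹ ^ 2 * (C + 1) ^ 2 :=
        mul_le_mul_of_nonneg_left ((hC y).trans (by nlinarith)) (sq_nonneg _)
    _ = 1 := by field_simp

end

/-- the output of the first run (helper28, `Gauss.Par.par`) -/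
def ParS : Prop :=
  ∀ (n q r : ℕ) (X : Type) [TopologicalSpace X] [CompactSpace X] [T2Space X] (A : Atl n X)
    [Finite A.ι] (G : Type) [Group G] (D : MonD A G) [ConnectedSpace (D.cov G)] (H : Type)
    [NormedAddCommGroup H] [InnerProductSpace ℂ H] [CompleteSpace H] (Φ : Frm D q H), Φ.Rk r →
    ∀ (Γ : GM D (Fin r → FI n) (Pc H r)), (∀ i v x, Γ.b i v x = pl r (Φ.S i v x)) →
    ∀ (p : ℕ) (F : Fol D p), Φ.Eta F.T →
    (AE volume (HA.of (D.atl G)) fun y => y ∈ F.T.M0 ∧ Γ.bb y ≠ 0 ∧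
      ∀ᶠ x in 𝓝 y, snf (Γ.bb x) (Γ.bb y) = 0 → F.T.π y x = 0) →
    ∃ i v, ∃ O : Set X, IsOpen O ∧ O.Nonempty ∧ O ⊆ (A.e i).source ∧ ∀ x ∈ O,
      ∃ Ψ : Pc H r, ∀ I, Sp (wc H r).toAlternatingMap (dV A i (Φ.a i v) x) (Φ.S i v x) I
        = F.e i x I • Ψ

theorem gauss_of_par (hB : Rn.RelnBStmt) (hP : ParS) : Gauss.GaussStmt := by
  intro n X _ _ _ A _ Γ _ D hc N _ hG hA M _ _ hK hv q H _ _ _ Φ U hF p F h
  obtain ⟨Φ₁, hF₁, hE⟩ := Gauss.Dsc.desc U hF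
  have := Cov.A.connected_push D (QuotientGroup.mk' N) (QuotientGroup.mk'_surjective N)
  let D₁ := Cov.A.push D (QuotientGroup.mk' N)
  have : Countable (Γ ⧸ N) := Cov.A.countable D₁
  have : Countable (D₁.atl (Γ ⧸ N)).ι := inferInstanceAs (Countable (A.ι × (Γ ⧸ N)))
  have hn : 1 ≤ n := by
    obtain ⟨i, v, x, hx, h0⟩ := Φ.S_ne
    obtain ⟨I, hI⟩ := Function.ne_iff.1 h0
    have h1 : I.card = q + 1 := by
      by_contra h1
      exact hI (Φ.deg i v x hx I h1)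
    have h2 := I.card_le_univ
    rw [Fintype.card_fin] at h2
    omega
  have hI : ∀ T : Eqv.TP volume (HA.of (D₁.atl (Γ ⧸ N))) (Γ ⧸ N), ¬ Rn.Ig T := by
    rintro T ⟨V, _, _, I, -⟩
    exact hv (hG.vind_of_ig_amen hA I hK)
  obtain ⟨r, hr⟩ := Φ₁.exists_rk
  obtain ⟨Γ₁, hb⟩ := Φ₁.exists_gm hr
  have h1 := ((hB n hn _ _ _ p F.T Γ₁.tp).resolve_left
    (not_tr1 Φ₁ hG hA hK hv hF₁ hr Γ₁ hb)).resolve_left (hI _)
  obtain ⟨T, h2, h3, h4⟩ := exists_tp Φ₁ hG hA hK hv hF₁ hr F h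
    (hP n q r X A _ D₁ H Φ₁ hr Γ₁ hb p F (hE p F.T) (Γ₁.of_shell h1))
  exact Rn93.pol_of_shell F h T h2 h3
    (((hB n hn _ _ _ p F.T T).resolve_left h4).resolve_left (hI _))

theorem parS : ParS := fun _ _ _ _ _ _ _ _ _ _ _ _ _ _ _ _ _ Φ hr Γ hb _ F hE hS =>
  (Gauss.Par.par Φ hr Γ hb F hE hS).2

/-- **GAUSS** -/
theorem gauss_of (hB : Rn.RelnBStmt) : Gauss.GaussStmt := gauss_of_par hB parS

end Crest.Agent.X261.Plk.Gm
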