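import Crest.Agent.X261.Plk.E
import Crest.Agent.X261.Gauss.NP
import Crest.Agent.X261.Gauss.Flat

/-!
# Row 261, GAUSS-LIN (helper91), file `Np`: the form `η^r ∧ τ` has no poles (flat version)

* `ev_nf`, `mem_closure_ne`, `eq_of_dense` : identity theorem and density;
* `riemann_bdd`, `ext_cop` : removable singularities;
* `sp_ext` : scalar components of `Sp` extend holomorphically across `τ = 0`.
-/

set_option autoImplicit false
set_option linter.unusedSectionVars false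

open Set Filter Topology Metric MeasureTheory
open scoped ENNReal

namespace Crest.Agent.X261.Plk

open Crest.Agent.R273.Fock_243 Crest.Agent.R275.Geo
open Crest.Agent.R281.Kd_22 (CopF)
open Crest.Agent.X261.Gauss.NP (dA tau an_dA an_tau np_vol)

noncomputable section

theorem eq_of_dense {Y V : Type*} [TopologicalSpace Y] [TopologicalSpace V] [T2Space V]
    {f g : Y → V} {x : Y} {D : Set Y} (hf : ContinuousAt f x) (hg : ContinuousAt g x)
    (hx : x ∈ closure D) (h : ∀ᶠ y in 𝓝 x, y ∈ D → f y = g y) : f x = g x :=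
  tendsto_nhds_unique_of_frequently_eq hf hg
    (((mem_closure_iff_frequently.1 hx).and_eventually h).mono fun _ hw => hw.2 hw.1)

theorem mem_closure_ne {Y V : Type*} [TopologicalSpace Y] [Zero V] {f : Y → V} {x : Y}
    (h : ¬ ∀ᶠ y in 𝓝 x, f y = 0) : x ∈ closure {y | f y ≠ 0} :=
  mem_closure_iff_frequently.2 (Filter.not_eventually.1 h)

section flat

variable {E : Type} [NormedAddCommGroup E] [NormedSpace ℂ E]

theorem ev_nf {V : Type*} [NormedAddCommGroup V] [NormedSpace ℂ V] [CompleteSpace V]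
    {f : E → V} {p : E}
    (hf : AnalyticAt ℂ f p) (h : ¬ ∀ᶠ z in 𝓝 p, f z = 0) :
    ∀ᶠ z in 𝓝 p, ¬ ∀ᶠ y in 𝓝 z, f y = 0 := by
  obtain ⟨ρ, hρ, hA⟩ := Metric.eventually_nhds_iff_ball.1 hf.eventually_analyticAt
  filter_upwards [ball_mem_nhds p hρ] with z hz hcon
  have h1 : EqOn f 0 (ball p ρ) :=
    AnalyticOnNhd.eqOn_zero_of_preconnected_of_eventuallyEq_zero hA
      (convex_ball p ρ).isPreconnected hz hcon
  exact h (Filter.eventually_of_mem (ball_mem_nhds p hρ) h1)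

variable [FiniteDimensional ℂ E]

/-- Riemann's theorem for bounded functions -/
theorem riemann_bdd {f D : E → ℂ} {p : E} (hD : AnalyticAt ℂ D p) (h0 : ¬ ∀ᶠ z in 𝓝 p, D z = 0)
    {M : ℝ} (hf : ∀ᶠ z in 𝓝 p, D z ≠ 0 → DifferentiableAt ℂ f z ∧ ‖f z‖ ≤ M) :
    ∃ g : E → ℂ, AnalyticAt ℂ g p ∧ ∀ᶠ z in 𝓝 p, D z ≠ 0 → g z = f z := by
  have : ProperSpace E := FiniteDimensional.proper ℂ E
  borelize E
  obtain ⟨K⟩ : Nonempty (TopologicalSpace.PositiveCompacts E) := inferInstance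
  let μ : Measure E := Measure.addHaarMeasure K
  obtain ⟨ρ, hρ, h⟩ := Metric.eventually_nhds_iff_ball.1
    (hD.eventually_analyticAt.and ((ev_nf hD h0).and hf))
  have hU : IsOpen (ball p ρ ∩ {z | D z ≠ 0}) :=
    ContinuousOn.isOpen_inter_preimage (t := {0}ᶜ)
      (fun z hz => (h z hz).1.continuousAt.continuousWithinAt) isOpen_ball isOpen_compl_singleton
  obtain ⟨g, hg, e⟩ := Gauss.riemann_L2 μ (f := f) isOpen_ball (fun z hz => (h z hz).1)
    (fun z hz => (h z hz).2.1) (fun z hz => ((h z hz.1).2.2 hz.2).1.differentiableWithinAt) (by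
      calc ∫⁻ z in ball p ρ ∩ {z | D z ≠ 0}, ‖f z‖ₑ ^ 2 ∂μ
          ≤ ∫⁻ _ in ball p ρ ∩ {z | D z ≠ 0}, ENNReal.ofReal M ^ 2 ∂μ := by
            refine setLIntegral_mono' hU.measurableSet fun z hz => ?_
            gcongr
            rw [← ofReal_norm]
            exact ENNReal.ofReal_le_ofReal ((h z hz.1).2.2 hz.2).2
        _ < ⊤ := by
            rw [setLIntegral_const]
            exact ENNReal.mul_lt_top (ENNReal.pow_lt_top ENNReal.ofReal_lt_top)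
              ((measure_mono inter_subset_left).trans_lt measure_ball_lt_top))
  exact ⟨g, R266.SCV.analyticOnNhd_of_differentiableOn isOpen_ball hg p (mem_ball_self hρ),
    Filter.eventually_of_mem (ball_mem_nhds p hρ) e⟩

/-- extension across the common zeros of a coprime family -/
theorem ext_cop {κ : Type} [Fintype κ] {t : κ → E → ℂ} {p : E} (ht : ∀ j, AnalyticAt ℂ (t j) p)
    (hc : CopF t p) {D s : E → ℂ} (hD : AnalyticAt ℂ D p) (h0 : ¬ ∀ᶠ z in 𝓝 p, D z = 0)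
    (hDt : ∀ᶠ z in 𝓝 p, D z ≠ 0 → ∃ j, t j z ≠ 0)
    (hs : ∀ᶠ z in 𝓝 p, (∃ j, t j z ≠ 0) → ∃ g : E → ℂ, AnalyticAt ℂ g z ∧
      ∀ᶠ y in 𝓝 z, D y ≠ 0 → g y = s y) :
    ∃ g : E → ℂ, AnalyticAt ℂ g p ∧ ∀ᶠ z in 𝓝 p, D z ≠ 0 → g z = s z := by
  obtain ⟨O, hO, hOo, hpO⟩ := _root_.eventually_nhds_iff.1
    ((eventually_all.2 fun j => (ht j).eventually_analyticAt).and ((ev_nf hD h0).and hs))
  have hU : IsOpen (O ∩ {z | ∃ j, t j z ≠ 0}) := by
    rw [isOpen_iff_mem_nhds]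
    rintro z ⟨h1, j, h2⟩
    filter_upwards [hOo.mem_nhds h1, ((hO z h1).1 j).continuousAt.eventually_ne h2] with y h3 h4
    exact ⟨h3, j, h4⟩
  obtain ⟨G, hG, e⟩ := glue_ext (D := {z | D z ≠ 0}) (F := s) hU
    (fun z hz => mem_closure_ne (hO z hz.1).2.1) fun z hz => (hO z hz.1).2.2 hz.2
  obtain ⟨N, hN, M, hM⟩ := Gauss.bdd_cop ht hc (hOo.mem_nhds hpO) (g := G)
    fun z h1 h2 => (hG z ⟨h1, h2⟩).differentiableAt
  obtain ⟨g, hg, e'⟩ := riemann_bdd (f := G) hD h0 (M := M) (by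
    filter_upwards [hN, hDt, hOo.mem_nhds hpO] with z h1 h2 h3 h4
    exact ⟨(hG z ⟨h3, h2 h4⟩).differentiableAt, hM z h1 (h2 h4)⟩)
  refine ⟨g, hg, ?_⟩
  filter_upwards [e', hDt, hOo.mem_nhds hpO] with z h1 h2 h3 h4
  rw [h1 h4, e ⟨⟨h3, h2 h4⟩, h4⟩]

end flat

variable {n q r : ℕ} {H : Type} [NormedAddCommGroup H] [NormedSpace ℂ H]

/-- local boundedness where one minor divides all the others -/
theorem sp_bdd {W : Type*} [NormedAddCommGroup W] [NormedSpace ℂ W] (G : H [⋀^Fin r]→L[ℂ] W)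
    {a : Cn n → Cn q} {S : Cn n → FI n → H} {z : Cn n} (ha : AnalyticAt ℂ a z)
    (hS : ∀ᶠ y in 𝓝 z, ∀ I, DifferentiableAt ℂ (fun y => S y I) y)
    (hh : ∀ᶠ y in 𝓝 z, Hor (dA a y) (S y)) {J : FI n}
    (hd : ∀ I, ∃ c : Cn n → ℂ, AnalyticAt ℂ c z ∧ ∀ᶠ y in 𝓝 z, tau a y I = c y * tau a y J)
    (hne : ¬ ∀ᶠ y in 𝓝 z, tau a y J = 0) {N : Set (Cn n)} (hN : N ∈ 𝓝 z) {C : ℝ≥0∞}
    (hC : C < ⊤)
    (hb : ∀ K ⊆ N, IsCompact K → ∀ I, ∫⁻ y in K, ‖S y I‖ₑ ^ 2 ≤ C * volume (a '' K)) :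
    ∃ M : ℝ, ∀ᶠ y in 𝓝 z, tau a y J ≠ 0 → ∀ I, ‖Sp G.toAlternatingMap (dA a y) (S y) I‖ ≤ M := by
  choose c hc using fun I => np_vol (g := fun y => S y I) ha (hS.mono fun y hy => hy I) hd hne hN
    hC fun K h1 h2 => hb K h1 h2 I
  obtain ⟨C', -, hC'⟩ := exists_norm_Sp (n := n) G q
  have h1 : ContinuousAt (fun y => ‖tau a y‖) z :=
    (continuousAt_pi.2 fun I => (an_tau ha I).continuousAt).norm
  refine ⟨C' * (‖tau a z‖ + 1) * (∑ I, |c I|) ^ r, ?_⟩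
  filter_upwards [hh, eventually_all.2 hc, h1.eventually (gt_mem_nhds (lt_add_one _))]
    with y h2 h3 h4 h5
  refine (hC' (dA a y) (S y) _ _ fun I => (norm_le_pi_norm (tau a y) I).trans h4.le).2 h2 J h5
    fun I => (h3 I).trans (mul_le_mul_of_nonneg_right ((le_abs_self _).trans ?_) (norm_nonneg _))
  exact Finset.single_le_sum (f := fun I => |c I|) (fun _ _ => abs_nonneg _) (Finset.mem_univ I)

/-- **no poles**, scalar version -/
theorem sp_ext (G : H [⋀^Fin r]→L[ℂ] ℂ) {a : Cn n → Cn q} {S : Cn n → FI n → H} {z : Cn n}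
    (ha : AnalyticAt ℂ a z) (hS : ∀ᶠ y in 𝓝 z, ∀ I, DifferentiableAt ℂ (fun y => S y I) y)
    (hh : ∀ᶠ y in 𝓝 z, Hor (dA a y) (S y)) {d : Cn n → ℂ} {t : FI n → Cn n → ℂ}
    (ht : ∀ I, AnalyticAt ℂ (t I) z) (hc : CopF t z)
    (hdt : ∀ᶠ y in 𝓝 z, ∀ I, tau a y I = d y * t I y) (hne : ¬ ∀ᶠ y in 𝓝 z, tau a y = 0)
    {N : Set (Cn n)} (hN : N ∈ 𝓝 z) {C : ℝ≥0∞} (hC : C < ⊤)
    (hb : ∀ K ⊆ N, IsCompact K → ∀ I, ∫⁻ y in K, ‖S y I‖ₑ ^ 2 ≤ C * volume (a '' K))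
    (I : FI n) : ∃ g : Cn n → ℂ, AnalyticAt ℂ g z ∧
      ∀ᶠ y in 𝓝 z, tau a y ≠ 0 → g y = Sp G.toAlternatingMap (dA a y) (S y) I := by
  obtain ⟨J₀, hJ₀⟩ : ∃ J₀, ¬ ∀ᶠ y in 𝓝 z, tau a y J₀ = 0 := by
    by_contra hcon
    push Not at hcon
    exact hne ((eventually_all.2 hcon).mono fun y hy => funext hy)
  have hnf := ev_nf (an_tau ha J₀) hJ₀
  have hdiff : ∀ᶠ y in 𝓝 z, tau a y ≠ 0 →
      DifferentiableAt ℂ (fun y => Sp G.toAlternatingMap (dA a y) (S y) I) y := by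
    filter_upwards [ha.eventually_analyticAt, hS, hh.eventually_nhds] with y h1 h2 h3 h4
    exact differentiableAt_Sp G (fun k j => (an_dA h1 k j).differentiableAt) h2 h3 h4 I
  obtain ⟨g, hg, e⟩ := ext_cop ht hc (D := fun y => tau a y J₀)
    (s := fun y => Sp G.toAlternatingMap (dA a y) (S y) I) (an_tau ha J₀) hJ₀
    (hdt.mono fun y hy h0 => ⟨J₀, fun h1 => h0 (by rw [hy, h1, mul_zero])⟩) (by
      filter_upwards [ha.eventually_analyticAt, hS.eventually_nhds, hh.eventually_nhds,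
        hdt.eventually_nhds, eventually_all.2 fun I => (ht I).eventually_analyticAt, hnf,
        eventually_mem_nhds_iff.2 hN, hdiff.eventually_nhds] with y h1 h2 h3 h4 h5 h6 h7 h8
      rintro ⟨J, hJ⟩
      have h9 : ∀ I, ∀ᶠ w in 𝓝 y, tau a w I = (t I w / t J w) * tau a w J := fun I => by
        filter_upwards [h4, (h5 J).continuousAt.eventually_ne hJ] with w h10 h11
        rw [h10, h10]
        field_simp
      obtain ⟨M, hM⟩ := sp_bdd G h1 h2 h3 (J := J) (fun I => ⟨_, (h5 I).div (h5 J) hJ, h9 I⟩)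
        (fun h10 => h6 (by
          filter_upwards [h10, h9 J₀] with w h11 h12
          rw [h12, h11, mul_zero])) h7 hC hb
      refine riemann_bdd (an_tau h1 J₀) h6 (M := M) ?_
      filter_upwards [hM, h8, h9 J₀] with w h10 h11 h12 h13
      exact ⟨h11 fun h14 => h13 (congrFun h14 J₀),
        h10 (fun h14 => h13 (by rw [h12, h14, mul_zero])) I⟩)
  refine ⟨g, hg, ?_⟩
  filter_upwards [hg.eventually_analyticAt, e.eventually_nhds, hnf, hdiff] with y h1 h2 h3 h4 h5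
  exact eq_of_dense h1.continuousAt (h4 h5).continuousAt (mem_closure_ne h3) h2

end

end Crest.Agent.X261.Plk
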