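import Crest.Agent.X261.Plk.E
import Crest.Agent.X261.Gauss.Stm

/-!
# Row 261, GAUSS-LIN (helper91), file `Rk`: proof of `Gauss.RkStmt`

* `exists_ker_field` : holomorphic sections of the kernel of a family of constant rank;
* `rkStmt`.
-/

set_option autoImplicit false
set_option linter.unusedSectionVars false

open Finset Matrix Filter Topology

namespace Crest.Agent.X261.Plk

open Crest.Agent.R273.Fock_243 Crest.Agent.R275.Geo
open Crest.Agent.R275.OmT75 (dj)

noncomputable section

/-- holomorphic sections of the kernel of a family of constant rank -/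
theorem exists_ker_field {X E F : Type*} [NormedAddCommGroup X] [NormedSpace ℂ X]
    [NormedAddCommGroup E] [NormedSpace ℂ E] [FiniteDimensional ℂ E] [NormedAddCommGroup F]
    [NormedSpace ℂ F] {Λ : X → E →L[ℂ] F} {z : X} (hΛ : AnalyticAt ℂ Λ z)
    (hr : ∀ᶠ y in 𝓝 z, Module.finrank ℂ (LinearMap.ker (Λ z : E →ₗ[ℂ] F)) ≤
      Module.finrank ℂ (LinearMap.ker (Λ y : E →ₗ[ℂ] F))) {w : E} (hw : Λ z w = 0) :
    ∃ v : X → E, AnalyticAt ℂ v z ∧ v z = w ∧ ∀ᶠ y in 𝓝 z, Λ y (v y) = 0 := by
  have : CompleteSpace E := FiniteDimensional.complete ℂ E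
  set L : E →ₗ[ℂ] F := (Λ z : E →ₗ[ℂ] F) with hL
  obtain ⟨P, hP⟩ := Submodule.ClosedComplemented.of_finiteDimensional (LinearMap.range L)
  obtain ⟨s, hs⟩ := L.rangeRestrict.exists_rightInverse_of_surjective L.range_rangeRestrict
  have hs' : ∀ a : LinearMap.range L, L (s a) = a := fun a =>
    congrArg Subtype.val (LinearMap.congr_fun hs a)
  set R : F →L[ℂ] E := (LinearMap.toContinuousLinearMap s).comp P with hR
  have hLR : ∀ f, L (R f) = P f := fun f => hs' _
  have hPL : ∀ x, (P (L x) : F) = L x := fun x => congrArg Subtype.val (hP ⟨L x, x, rfl⟩)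
  set B : X → E →L[ℂ] E := fun y => 1 + (R.comp (Λ y) - R.comp (Λ z)) with hB
  have hB0 : B z = 1 := by simp [hB]
  have hBa : AnalyticAt ℂ B z := analyticAt_const.add
    ((((ContinuousLinearMap.compL ℂ E F E R).analyticAt _).comp hΛ).sub analyticAt_const)
  have hu : ∀ᶠ y in 𝓝 z, IsUnit (B y) :=
    hBa.continuousAt.eventually (Units.isOpen.mem_nhds (show IsUnit (B z) from hB0 ▸ isUnit_one))
  have hi : AnalyticAt ℂ (fun y => Ring.inverse (B y)) z := by
    have h1 : AnalyticAt ℂ Ring.inverse (B z) := by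
      rw [hB0]; exact analyticAt_inverse (1 : (E →L[ℂ] E)ˣ)
    exact h1.comp hBa
  refine ⟨fun y => Ring.inverse (B y) w,
    ((ContinuousLinearMap.apply ℂ E w).analyticAt _).comp hi, by simp [hB0], ?_⟩
  filter_upwards [hu, hr] with y hy hy'
  have hBx : ∀ x, B y x = x + (R (Λ y x) - R (L x)) := fun x => rfl
  have hLB : ∀ x, L (B y x) = P (Λ y x) := fun x => by
    rw [hBx, map_add, map_sub, hLR, hLR, hPL]; abel
  set N : Submodule ℂ E := LinearMap.ker (L ∘ₗ (B y : E →ₗ[ℂ] E)) with hN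
  have h1 : LinearMap.ker (Λ y : E →ₗ[ℂ] F) ≤ N := fun x hx => by
    have h2 : Λ y x = 0 := hx
    show L (B y x) = 0
    rw [hLB, h2, map_zero, Submodule.coe_zero]
  have hinj : Function.Injective (B y) := fun a b hab => by
    have h3 : (Ring.inverse (B y) * B y) a = (Ring.inverse (B y) * B y) b :=
      congrArg (fun x => (Ring.inverse (B y) : E →L[ℂ] E) x) hab
    rwa [Ring.inverse_mul_cancel _ hy] at h3
  have h2 : Module.finrank ℂ N ≤ Module.finrank ℂ (LinearMap.ker L) :=
    LinearMap.finrank_le_finrank_of_injective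
      (f := (B y : E →ₗ[ℂ] E).restrict (p := N) (q := LinearMap.ker L) fun x hx => hx)
      fun a b hab => Subtype.ext (hinj (congrArg Subtype.val hab))
  have h3 := Submodule.eq_of_le_of_finrank_le h1 (h2.trans hy')
  have h4 : Ring.inverse (B y) w ∈ N := by
    show L ((B y * Ring.inverse (B y)) w) = 0
    rw [Ring.mul_inverse_cancel _ hy]
    exact hw
  rw [← h3] at h4
  exact h4

/-- RK -/
theorem rkStmt : Gauss.RkStmt := by
  intro n q H _ _ _ θ S z w hθ hS hc hr hw
  set col : Cn n → Fin n → (Fin q → ℂ) × (FI n → H) :=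
    fun y c => (fun k => θ y k c, mv (iW (ep c)) (S y)) with hcol
  set Λ : Cn n → (Fin n → ℂ) →L[ℂ] (Fin q → ℂ) × (FI n → H) := fun y =>
    ∑ c, (ContinuousLinearMap.proj c : (Fin n → ℂ) →L[ℂ] ℂ).smulRight (col y c) with hΛ
  have hap : ∀ y x, Λ y x = (fun k => θ y k ⬝ᵥ x, mv (iW x) (S y)) := by
    intro y x
    simp only [hΛ, _root_.sum_apply, ContinuousLinearMap.smulRight_apply,
      ContinuousLinearMap.proj_apply, hcol]
    refine Prod.ext ?_ ?_
    · funext k
      simp [Prod.fst_sum, Finset.sum_apply, dotProduct, mul_comm]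
    · funext I
      rw [Prod.snd_sum, Finset.sum_apply]
      exact (mv_iW_eq_sum x (S y) I).symm
  have hker : ∀ y, LinearMap.ker (Λ y : (Fin n → ℂ) →ₗ[ℂ] (Fin q → ℂ) × (FI n → H)) = Gauss.KerS (θ y) (S y) := by
    intro y
    ext x
    rw [LinearMap.mem_ker, ContinuousLinearMap.coe_coe, hap, Prod.mk_eq_zero, funext_iff]
    rfl
  have ha : AnalyticAt ℂ Λ z := by
    refine Finset.analyticAt_fun_sum _ fun c _ => ?_
    refine ((ContinuousLinearMap.smulRightL ℂ (Fin n → ℂ) _
      (ContinuousLinearMap.proj c)).analyticAt _).comp (f := fun y => col y c) ?_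
    exact (AnalyticAt.pi fun k => hθ k c).prod (AnalyticAt.pi fun I =>
      Finset.analyticAt_fun_sum _ fun J _ => (hS J).fun_const_smul)
  obtain ⟨v, hv, hv0, hk⟩ := exists_ker_field ha (hr.mono fun y hy => by rwa [hker, hker])
    (w := w) (by rw [hap, Prod.mk_eq_zero, funext_iff]; exact hw)
  have hv' : ∀ c, AnalyticAt ℂ (fun y => v y c) z := fun c =>
    ((ContinuousLinearMap.proj c : (Fin n → ℂ) →L[ℂ] ℂ).analyticAt _).comp hv
  have hS' : ∀ᶠ y in 𝓝 z, ∀ I, DifferentiableAt ℂ (fun y => S y I) y :=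
    eventually_all.2 fun I => (hS I).eventually_analyticAt.mono fun y hy => hy.differentiableAt
  have hV : ContDiffAt ℝ 1 (fun y => (WithLp.toLp 2 (v y) : Cn n)) z := by
    have h1 : AnalyticAt ℂ (fun y => (WithLp.toLp 2 (v y) : Cn n)) z :=
      ((EuclideanSpace.equiv (Fin n) ℂ).symm.analyticAt _).comp hv
    exact (h1.contDiffAt (n := 1)).restrict_scalars ℝ
  obtain ⟨γ, h0, ε, hε, hγ⟩ :=
    hV.exists_forall_mem_closedBall_exists_eq_forall_mem_Ioo_hasDerivAt₀ 0
  have hγ' : ∀ᶠ t in 𝓝 (0 : ℝ), HasDerivAt γ (WithLp.toLp 2 (v (γ t))) t :=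
    Filter.eventually_of_mem (Ioo_mem_nhds (by linarith) (by linarith)) hγ
  set T := Submodule.span ℂ (Set.range (S z))
  have : FiniteDimensional ℂ T := FiniteDimensional.span_of_finite ℂ (Set.finite_range _)
  have h1 := ode hv' hS' (hk.mono fun y hy => by
      rw [hap, Prod.mk_eq_zero] at hy
      exact hy.2)
    (by
      filter_upwards [hc, hS'] with y h2 h3
      simp only [dj_eq_fderiv (h3 _)]
      exact h2) h0 hγ'
    (ContinuousLinearMap.id ℂ H - T.starProjection) fun I => by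
      rw [_root_.sub_apply, ContinuousLinearMap.id_apply,
        Submodule.starProjection_eq_self_iff.2 (mem_span_self (S z) I), sub_self]
  refine ⟨γ, h0, ?_, ?_⟩
  · have h2 := hγ'.self_of_nhds
    rwa [h0, hv0] at h2
  · filter_upwards [h1] with t h2 I
    have h4 := h2 I
    rw [_root_.sub_apply, ContinuousLinearMap.id_apply, sub_eq_zero] at h4
    exact Submodule.starProjection_eq_self_iff.1 h4.symm

end

end Crest.Agent.X261.Plk
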