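import Crest.Agent.X261.Gauss.Defs
import Crest.Agent.X261.Grp.Tits

/-!
# Row 261, GAUSS-LIN (helper91), file `Tr`: the trivial case of the trichotomy

* `fix_of_inv`, `fix_of_inv'` : a finite dimensional subspace preserved by a nontrivial normal
  subgroup is fixed by a finite index subgroup of `K`;
* `triv` : with `NoFix` the form vanishes at such a point.
-/

set_option autoImplicit false
set_option linter.unusedSectionVars false

open Set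
open scoped InnerProductSpace

namespace Crest.Agent.X261.Plk

open Crest.Agent.R275.Geo Crest.Agent.R273.UCov_914
open Crest.Agent.R189 (Amen)
open Crest.Agent.X261.Grp

attribute [-instance] CStarModule.toInner

noncomputable section

theorem fix_of_inv {G : Type*} [Group G] (hG : JN G) (hA : Amen G) {K : Subgroup G} (hK : K.FG)
    (hv : ¬ VInd K) {N₁ : Subgroup G} (h1 : N₁.Normal) (h2 : N₁ ≠ ⊥) {H : Type*} [AddCommGroup H]
    [Module ℂ H] (ρ : G →* Module.End ℂ H) (T : Submodule ℂ H) [FiniteDimensional ℂ T]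
    (hT : ∀ g ∈ N₁, ∀ h ∈ T, ρ g h ∈ T) :
    ∃ K', Grp.FI K' K ∧ ∀ g ∈ K', ∀ h ∈ T, ρ g h = h := by
  classical
  obtain ⟨L, hL, h4⟩ := hG.quot N₁ h1 h2
  have h5 : Grp.FI (L ⊓ K) K := (Grp.FI.of_finiteIndex L).inf_right le_top
  have h6 : Grp.FI ⁅L ⊓ K, L ⊓ K⁆ (L ⊓ K) := by
    by_contra h6
    exact hv ((vind_of_not_fi (h5.fg hK) h6).of_fi h5)
  have h7 : ⁅L ⊓ K, L ⊓ K⁆ ≤ N₁ := Subgroup.commutator_le.2 fun a ha b hb => h4 a ha.1 b hb.1
  have h8 := h6.trans h5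
  let σ : G → Module.End ℂ T := fun g => if hg : g ∈ N₁ then (ρ g).restrict (hT g hg) else 1
  have hσ : ∀ g ∈ N₁, ∀ x : T, (σ g x : H) = ρ g x := fun g hg x => by
    simp only [σ, dif_pos hg]; rfl
  have hrep : RepOn ⁅L ⊓ K, L ⊓ K⁆ σ := ⟨by
    ext x
    rw [hσ 1 N₁.one_mem, map_one]; rfl, fun a ha b hb => by
    ext x
    rw [hσ _ (N₁.mul_mem (h7 ha) (h7 hb)), Module.End.mul_apply, hσ a (h7 ha), hσ b (h7 hb),
      map_mul, Module.End.mul_apply]⟩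
  obtain ⟨K', h9, h10⟩ := finite_of_not_vind' hrep (amen_mono (amen_top_iff.2 hA) le_top)
    (h8.fg hK) fun h => hv (h.of_fi h8)
  refine ⟨K', h9.trans h8, fun g hg h hh => ?_⟩
  rw [← hσ g (h7 (h9.le hg)) ⟨h, hh⟩, h10 g hg]
  rfl

/-- the version on the big group -/
theorem fix_of_inv' {Γ : Type*} [Group Γ] (N : Subgroup Γ) [N.Normal] (hG : JN (Γ ⧸ N))
    (hA : Amen (Γ ⧸ N)) {M : Subgroup Γ} (hK : (M.map (QuotientGroup.mk' N)).FG)
    (hv : ¬ VInd (M.map (QuotientGroup.mk' N))) {N₁ : Subgroup (Γ ⧸ N)} (h1 : N₁.Normal)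
    (h2 : N₁ ≠ ⊥) {H : Type*} [NormedAddCommGroup H] [InnerProductSpace ℂ H]
    (ρ : Γ →* (H ≃ₗᵢ[ℂ] H)) (hρ : ∀ g ∈ N, ρ g = 1) (T : Submodule ℂ H) [FiniteDimensional ℂ T]
    (hT : ∀ g : Γ, QuotientGroup.mk' N g ∈ N₁ → ∀ h ∈ T, ρ g h ∈ T) :
    ∃ K', Grp.FI K' M ∧ ∀ g ∈ K', ∀ h ∈ T, ρ g h = h := by
  let e : (H ≃ₗᵢ[ℂ] H) →* Module.End ℂ H :=
    { toFun := fun U => (U.toLinearEquiv : H →ₗ[ℂ] H)
      map_one' := rfl
      map_mul' := fun _ _ => rfl }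
  let ρ' : Γ ⧸ N →* Module.End ℂ H :=
    QuotientGroup.lift N (e.comp ρ) fun g hg => by simp [hρ g hg]
  have h3 : ∀ (g : Γ) h, ρ' (QuotientGroup.mk' N g) h = ρ g h := fun _ _ => rfl
  obtain ⟨K', h4, h5⟩ := fix_of_inv hG hA hK hv h1 h2 ρ' T fun g hg h hh => by
    obtain ⟨g, rfl⟩ := QuotientGroup.mk'_surjective N g
    exact hT g hg h hh
  exact ⟨K'.comap (QuotientGroup.mk' N) ⊓ M,
    (h4.comap _).inf_right (Subgroup.le_comap_map _ M), fun g hg h hh => h5 _ hg.1 h hh⟩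

/-- **TRIV** -/
theorem triv {n : ℕ} {X : Type} [TopologicalSpace X] {A : Atl n X} {Γ : Type} [Group Γ]
    {D : MonD A Γ} (N : Subgroup Γ) [N.Normal] (hG : JN (Γ ⧸ N)) (hA : Amen (Γ ⧸ N))
    {M : Subgroup Γ} (hK : (M.map (QuotientGroup.mk' N)).FG)
    (hv : ¬ VInd (M.map (QuotientGroup.mk' N))) {q : ℕ} {H : Type} [NormedAddCommGroup H]
    [InnerProductSpace ℂ H] (Φ : Gauss.Frm D q H) (hρ : ∀ g ∈ N, Φ.ρ g = 1) (hF : Φ.NoFix M)
    {N₁ : Subgroup (Γ ⧸ N)} (h1 : N₁.Normal) (h2 : N₁ ≠ ⊥) {i : A.ι} {v : Γ} {x : X}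
    (hx : x ∈ (A.e i).source)
    (hT : ∀ g : Γ, QuotientGroup.mk' N g ∈ N₁ → ∀ I,
      Φ.ρ g (Φ.S i v x I) ∈ Submodule.span ℂ (range (Φ.S i v x))) : Φ.S i v x = 0 := by
  have := FiniteDimensional.span_of_finite ℂ (Set.finite_range (Φ.S i v x))
  obtain ⟨K', h3, h4⟩ := fix_of_inv' N hG hA hK hv h1 h2 Φ.ρ hρ
    (Submodule.span ℂ (range (Φ.S i v x))) fun g hg h hh => by
      have h5 : Submodule.span ℂ (range (Φ.S i v x)) ≤ (Submodule.span ℂ (range (Φ.S i v x))).comap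
          ((Φ.ρ g).toLinearEquiv : H →ₗ[ℂ] H) :=
        Submodule.span_le.2 (by rintro _ ⟨I, rfl⟩; exact hT g hg I)
      exact h5 hh
  funext I
  exact inner_self_eq_zero.1 (hF K' h3 _
    (fun g hg => h4 g hg _ (Submodule.subset_span ⟨I, rfl⟩)) i v x hx I)

end

end Crest.Agent.X261.Plk
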